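import Vale.Agent.P092.H411.S2.Jr
import Vale.Agent.P092.H714.SgM

/-!
P092 (helper534), stage CL-O, [CLO-WAL]: helper411's `det_Jr`, `rho_row`, `iso_rho` for every form
`Fm` (orthogonal groups included: only `inv` and `nondeg` are used).
-/

set_option linter.all false

open Matrix Set Topology Filter Module

namespace Vale.Agent.P092.H534.Or

open Vale.Agent.P092.H411.S2 (det_Je Jr map_map_id rho_form hf_rows hf_span_fam phm_rho)
open Vale.Agent.P092.H303 (FormGroup)
open Vale.Agent.P092.H714.Cl (hf)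
open Vale.Agent.P092.H714.Sg (Fm)
open Vale.Agent.P092.H370.Po (Sing Ort WI)
open Vale.Agent.P092.H416.CL (cor roc Je rho hf_cor cor_roc roc_cor)

variable {n : Type} [Fintype n] [DecidableEq n] {k : Type} [NontriviallyNormedField k] {N : ℕ}
  {σ : k →+* k} {ε : k} {J : Matrix n n k}

theorem det_neF (hF : Fm σ ε J) : J.det ≠ 0 := by
  intro h0
  obtain ⟨v, hv, h⟩ := Matrix.exists_vecMul_eq_zero_iff.2 h0
  obtain ⟨y, hy⟩ := hF.nondeg v hv
  apply hy
  unfold hf
  rw [dotProduct_mulVec, h, zero_dotProduct]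

theorem det_JrF (hF : Fm σ ε J) (e : n ≃ Fin (N + 1)) : (Jr σ e J).det ≠ 0 := by
  have h1 : (Jr σ e J).det = σ ((Je e J)⁻¹).det := by
    rw [Jr, RingHom.map_det]
    rfl
  rw [h1, ne_eq, map_eq_zero, det_nonsing_inv, Ring.inverse_eq_inv', inv_eq_zero, det_Je]
  exact det_neF hF

theorem rho_rowF (hF : Fm σ ε J) (e : n ≃ Fin (N + 1)) (g : FormGroup σ J) :
    (rho e σ J g).1 * Jr σ e J * ((rho e σ J g).1.map σ)ᵀ = Jr σ e J := by
  have hd : IsUnit (Je e J).det := isUnit_iff_ne_zero.2 (by rw [det_Je]; exact det_neF hF)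
  obtain ⟨A, hA⟩ : ∃ A : Matrix (Fin (N + 1)) (Fin (N + 1)) k, A = ((rho e σ J g).1)ᵀ := ⟨_, rfl⟩
  obtain ⟨B, hB⟩ : ∃ B : Matrix (Fin (N + 1)) (Fin (N + 1)) k, B = (rho e σ J g).1.map σ :=
    ⟨_, rfl⟩
  have h1 : A * Je e J * B = Je e J := by
    rw [hA, hB]
    exact rho_form e g
  have h2 : ((Je e J)⁻¹ * A * Je e J) * B = 1 := by
    rw [Matrix.mul_assoc, Matrix.mul_assoc, ← Matrix.mul_assoc A, h1, nonsing_inv_mul _ hd]
  have h3 : B * ((Je e J)⁻¹ * A * Je e J) = 1 := mul_eq_one_comm.1 h2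
  have h4 : B * (Je e J)⁻¹ * A = (Je e J)⁻¹ := by
    calc B * (Je e J)⁻¹ * A = (B * (Je e J)⁻¹ * A) * (Je e J * (Je e J)⁻¹) := by
          rw [mul_nonsing_inv _ hd, Matrix.mul_one]
      _ = (B * ((Je e J)⁻¹ * A * Je e J)) * (Je e J)⁻¹ := by simp only [Matrix.mul_assoc]
      _ = _ := by rw [h3, Matrix.one_mul]
  have h5 := congrArg (fun M : Matrix (Fin (N + 1)) (Fin (N + 1)) k => M.map σ) h4
  simp only [Matrix.map_mul] at h5
  rw [hB, map_map_id hF.inv, hA, transpose_map] at h5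
  exact h5

/-- no isotropic `(r + 1)`-space for the rows -/
theorem iso_rhoF (hF : Fm σ ε J) (e : n ≃ Fin (N + 1)) {r : ℕ}
    (hW : ∀ Y, Sing σ J Y → finrank k Y ≤ r) (v : Fin (r + 1) → Fin (N + 1) → k)
    (hv : LinearIndependent k v) :
    ∃ i j, v i ⬝ᵥ (Jr σ e J *ᵥ (fun l => σ (v j l))) ≠ 0 := by
  by_contra hcon
  push Not at hcon
  have hd : IsUnit (Je e J).det := isUnit_iff_ne_zero.2 (by rw [det_Je]; exact det_neF hF)
  obtain ⟨z, hz⟩ : ∃ z : Fin (r + 1) → n → k,
      z = fun i => roc e fun l => σ (((Je e J)⁻¹ *ᵥ v i) l) := ⟨_, rfl⟩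
  have h1 : ∀ i j, hf σ J (z i) (z j) = 0 := by
    intro i j
    rw [← hf_cor e, hz]
    simp only [cor_roc]
    have := hcon j i
    rw [Jr, hf_rows hF.inv _ hd] at this
    exact this
  have h2 : LinearIndependent k z := by
    rw [Fintype.linearIndependent_iff]
    intro c hc
    have h3 : ∑ i, σ (c i) • v i = 0 := by
      have h4 : ∀ l, ∑ i, c i * σ (((Je e J)⁻¹ *ᵥ v i) l) = 0 := by
        intro l
        have h0 := congrFun hc (e.symm l)
        rw [Finset.sum_apply, Pi.zero_apply] at h0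
        rw [← h0]
        refine Finset.sum_congr rfl fun i _ => ?_
        rw [hz]
        change _ = c i * σ (((Je e J)⁻¹ *ᵥ v i) (e (e.symm l)))
        rw [e.apply_symm_apply]
      have h5 : (Je e J)⁻¹ *ᵥ (∑ i, σ (c i) • v i) = 0 := by
        funext l
        rw [mulVec_sum, Finset.sum_apply]
        have h6 := congrArg σ (h4 l)
        rw [map_sum, map_zero] at h6
        rw [Pi.zero_apply, ← h6]
        refine Finset.sum_congr rfl fun i _ => ?_
        rw [mulVec_smul, Pi.smul_apply, smul_eq_mul, map_mul, hF.inv]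
      have h7 := congrArg (fun x => Je e J *ᵥ x) h5
      simp only [mulVec_mulVec, mul_nonsing_inv _ hd, one_mulVec, mulVec_zero] at h7
      exact h7
    have h8 := Fintype.linearIndependent_iff.1 hv (fun i => σ (c i)) h3
    intro i
    have := congrArg σ (h8 i)
    rwa [hF.inv, map_zero] at this
  have h9 := hW _ (hf_span_fam h1)
  rw [finrank_span_eq_card h2, Fintype.card_fin] at h9
  omega

end Vale.Agent.P092.H534.Or
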