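import Vale.Agent.P092.H411.S2.Sys
import Vale.Agent.P092.H534.Or.Jr

/-!
P092 (helper534), stage CL-O, [CLO-WAL]: helper411's near-wall statements (mass form, any model) and
near-wall systems for targets of any form `Fm` (orthogonal groups included).
-/

set_option linter.all false

open scoped InnerProductSpace ENNReal
open Matrix Filter Topology MeasureTheory ContinuousLinearMap TopologicalSpace Module

namespace Vale.Agent.P092.H534.Or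

open Vale.Agent.P092.SR Vale.Agent.P092.H160
open Vale.Agent.P092.H411.S2 (phm_rho)
open Vale.Agent.P092.H303 (FormGroup hyp)
open Vale.Agent.P092.H714.Sg (Fm)
open Vale.Agent.P092.H370.Po (Sing)
open Vale.Agent.P092.H761 (CovFam)
open Vale.Agent.P092.H432 Vale.Agent.P092.H132
open Vale.Agent.P092.H538 (ind)
open Vale.Agent.P092.H933 (LocK)
open Vale.Agent.P092.H337.NG (en)
open Vale.Agent.P092.RC (VR pic)
open Vale.Agent.P092.H805.RowN (Bd msE)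
open Vale.Agent.P092.H805.Row (mpE)
open Vale.Agent.P092.H416.CL (rho)
open Vale.Agent.P092.H632.T2 (ZC g1 g1' gr gr' nmC)
open Vale.Agent.P092.H859.CL (BB)
open Vale.Agent.P092.H534.Ch (StC)

section X

variable {E : Type} [Group E] [TopologicalSpace E] [IsTopologicalGroup E] [LocallyCompactSpace E]
  [SecondCountableTopology E] [T2Space E] [MeasurableSpace E] [BorelSpace E]
  (Λ : Subgroup E) [DiscreteTopology Λ] [MeasurableSpace (E ⧸ Λ)] [BorelSpace (E ⧸ Λ)]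
  (ν : Measure (E ⧸ Λ)) [IsProbabilityMeasure ν] (hν : ∀ g : E, ν.map (fun x => g • x) = ν)
  {Γ Q ι : Type} [Group Γ] [Countable Γ] [Group Q] [Countable Q] [Fintype ι] {t : ℝ}
  {R : Λ → (Ell2 ((Γ × Q) × ι) →L[ℂ] Ell2 ((Γ × Q) × ι))}
  {E0 : Set Λ → (Ell2 ((Γ × Q) × ι) →L[ℂ] Ell2 ((Γ × Q) × ι))}
  {N r : ℕ} {k : Type} [NontriviallyNormedField k] [ProperSpace k]
  {n : Type} [Fintype n] [DecidableEq n] {σ : k →+* k} {ε : k} {J : Matrix n n k}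
  (e : n ≃ Fin (N + 1))

include e in
/-- **near-wall, any model: the pair of the points** -/
theorem nrm_ptF (hR : ARep t R) (hE : CovFam R E0)
    (hq0 : ∀ A (q : Q), E0 A * lx ((1 : Γ), q) = lx ((1 : Γ), q) * E0 A) (h2 : 2 ≤ r)
    (h2r : 2 * r ≤ N + 1) {b : E} (hC : StC r b) (hC' : StC r b⁻¹) (hk : LocK k)
    (hF : Fm σ ε J) (hσ : ∀ x, ‖σ x‖ = ‖x‖) (hW : ∀ Y, Sing σ J Y → finrank k Y ≤ r)
    {q : Γ → FormGroup σ J} (hph : ∀ γ γ', ∃ z ∈ ZC σ J, q (γ * γ') = z * (q γ * q γ'))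
    (disc : ∀ C : ℝ, {γ : Γ | nmC e (q γ) ≤ C}.Finite) {δ : ℝ} (hδ : 0 < δ) :
    ∃ ρ : ℝ, ∀ u ∈ Subgroup.zpowers b,
      massX (H538.fst (H790.baseL (H85.cdat ν hν).μ (Γ × Q) ι)) (H790.Ri (H85.cdat ν hν) R)
        u (ind fun γ => γ ∈ BB (fun γ => g1 e (q γ)) (fun γ => g1' e (q γ)) ρ) ≤ δ :=
  H534.Ch.nrmR1 Λ ν hν hR hE hq0 h2 h2r hC hC' hk (phm_rho e hph) hσ (det_JrF hF e)
    (fun γ => rho_rowF hF e (q γ)) (iso_rhoF hF e hW) disc hδ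

include e in
/-- **near-wall, any model: the pair of the maximal subspaces** -/
theorem nrm_mxF (hR : ARep t R) (hE : CovFam R E0)
    (hq0 : ∀ A (q : Q), E0 A * lx ((1 : Γ), q) = lx ((1 : Γ), q) * E0 A) (h2 : 2 ≤ r)
    (h2r : 2 * r ≤ N + 1) {b : E} (hC : StC r b) (hC' : StC r b⁻¹) (hk : LocK k)
    (hF : Fm σ ε J) (hσ : ∀ x, ‖σ x‖ = ‖x‖) (hW : ∀ Y, Sing σ J Y → finrank k Y ≤ r)
    {q : Γ → FormGroup σ J} (hph : ∀ γ γ', ∃ z ∈ ZC σ J, q (γ * γ') = z * (q γ * q γ'))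
    (disc : ∀ C : ℝ, {γ : Γ | nmC e (q γ) ≤ C}.Finite) {δ : ℝ} (hδ : 0 < δ) :
    ∃ ρ : ℝ, ∀ u ∈ Subgroup.zpowers b,
      massX (H538.fst (H790.baseL (H85.cdat ν hν).μ (Γ × Q) ι)) (H790.Ri (H85.cdat ν hν) R)
        u (ind fun γ => γ ∈ BB (fun γ => gr e r (q γ)) (fun γ => gr' e r (q γ)) ρ) ≤ δ :=
  H534.Ch.nrmRr Λ ν hν hR hE hq0 h2 h2r hC hC' hk (phm_rho e hph) hσ (det_JrF hF e)
    (fun γ => rho_rowF hF e (q γ)) (iso_rhoF hF e hW) disc hδ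

end X

section con

variable {E : Type} [Group E] [TopologicalSpace E] [IsTopologicalGroup E] [LocallyCompactSpace E]
  [SecondCountableTopology E] [T2Space E] [MeasurableSpace E] [BorelSpace E]
  {Γ : Subgroup E} [DiscreteTopology Γ] [Countable Γ] [MeasurableSpace (E ⧸ Γ)]
  [BorelSpace (E ⧸ Γ)] {ν : Measure (E ⧸ Γ)} [IsProbabilityMeasure ν]
  (hν : ∀ g : E, ν.map (fun x => g • x) = ν)
  {Λ : Type} [Group Λ] [Countable Λ] {α : Γ →* (Ell2 Λ →L[ℂ] Ell2 Λ)} (hα : Frame α)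
  {N r : ℕ} {k : Type} [NontriviallyNormedField k] [ProperSpace k]
  {n : Type} [Fintype n] [DecidableEq n] {σ : k →+* k} {ε : k} {J : Matrix n n k}
  (e : n ≃ Fin (N + 1))

include e in
/-- **`SysF` for the pair of the points**, `t = 1` -/
theorem sys_ptF (h2 : 2 ≤ r) (h2r : 2 * r ≤ N + 1) {b : E} (hC : StC r b) (hC' : StC r b⁻¹)
    (hk : LocK k) (hF : Fm σ ε J) (hσ : ∀ x, ‖σ x‖ = ‖x‖)
    (hW : ∀ Y, Sing σ J Y → finrank k Y ≤ r)
    {q : Γ → FormGroup σ J} (hph : ∀ γ γ', ∃ z ∈ ZC σ J, q (γ * γ') = z * (q γ * q γ'))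
    (disc : ∀ C : ℝ, {γ : Γ | nmC e (q γ) ≤ C}.Finite) :
    H859.CL.SysF (mpE ν hα) (fun g => pic hν hα g) (Bd ν hα) (msE hν hα) (Subgroup.zpowers b)
      (fun γ => g1 e (q γ)) (fun γ => g1' e (q γ)) :=
  H534.Ch.sysR1 hν hα h2 h2r hC hC' hk (phm_rho e hph) hσ (det_JrF hF e)
    (fun γ => rho_rowF hF e (q γ)) (iso_rhoF hF e hW) disc

include e in
/-- **`SysF` for the pair of the maximal subspaces**, `t = 1` -/
theorem sys_mxF (h2 : 2 ≤ r) (h2r : 2 * r ≤ N + 1) {b : E} (hC : StC r b) (hC' : StC r b⁻¹)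
    (hk : LocK k) (hF : Fm σ ε J) (hσ : ∀ x, ‖σ x‖ = ‖x‖)
    (hW : ∀ Y, Sing σ J Y → finrank k Y ≤ r)
    {q : Γ → FormGroup σ J} (hph : ∀ γ γ', ∃ z ∈ ZC σ J, q (γ * γ') = z * (q γ * q γ'))
    (disc : ∀ C : ℝ, {γ : Γ | nmC e (q γ) ≤ C}.Finite) :
    H859.CL.SysF (mpE ν hα) (fun g => pic hν hα g) (Bd ν hα) (msE hν hα) (Subgroup.zpowers b)
      (fun γ => gr e r (q γ)) (fun γ => gr' e r (q γ)) :=
  H534.Ch.sysRr hν hα h2 h2r hC hC' hk (phm_rho e hph) hσ (det_JrF hF e)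
    (fun γ => rho_rowF hF e (q γ)) (iso_rhoF hF e hW) disc

end con

end Vale.Agent.P092.H534.Or
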