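import Vale.Agent.P092.H534.Or.Chain

/-!
P092 (helper534), stage CL-O, [CLO-NRM]: wall 1 in Witt index 2 (orthogonal groups); the statements
`StC` for the two walls and every Witt index.
-/

set_option linter.all false

open Matrix Set Topology Filter

namespace Vale.Agent.P092.H534.Or

open Vale.Agent.P092.H303
open Vale.Agent.P092.H534.Ch
open Vale.Agent.P092.H411 Vale.Agent.P092.H411.S2
open Vale.Agent.P092.H761 (GChain)
open Vale.Agent.P092.H261 (PingT)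
open Vale.Agent.P092.H714.Cl (hf hf_add_left hf_smul_left hf_add_right hf_smul_right mem_formGroup
  hf_hyp)
open Vale.Agent.P092.H714.Sg (Fm)
open Vale.Agent.P092.H370.Fo (EU EP ei ei_mem_EU EU_le vecMul_ei)
open Vale.Agent.P092.H899.Ort (Om Good Aniso hyp_single hyp_single')
open Vale.Agent.P092.CL (EUF OF b1O b2O e0)

section alg

variable {n : Type} [Fintype n] [DecidableEq n] {k : Type} [Field k] {J : Matrix n n k}
  {u w c : n → k} {η : k}

/-- isometries which fix the three vectors commute with the image of `SL₂` -/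
theorem comm_Ps (h : T3 J u w c η) {g : FormGroup (RingHom.id k) J} (hu : u ᵥ* g.1.1 = u)
    (hw : w ᵥ* g.1.1 = w) (hc : c ᵥ* g.1.1 = c) (x : SpecialLinearGroup (Fin 2) k) :
    Commute g (Ps h x) := by
  apply Subtype.ext
  apply Subtype.ext
  refine ext_iff_vecMul.mpr fun y => ?_
  change y ᵥ* (g.1.1 * ph J u w c η x.1) = y ᵥ* (ph J u w c η x.1 * g.1.1)
  have hg := (H714.Cl.mem_formGroup (σ := RingHom.id k) (J := J)).1 g.2
  have e1 : (y ᵥ* g.1.1) ᵥ* P3 J u w c η = y ᵥ* P3 J u w c η := by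
    rw [vecMul_P3 h, vecMul_P3 h]
    have a1 : hf (RingHom.id k) J (y ᵥ* g.1.1) w = hf (RingHom.id k) J y w := by
      conv_lhs => rw [← hw]
      exact hg y w
    have a2 : hf (RingHom.id k) J (y ᵥ* g.1.1) u = hf (RingHom.id k) J y u := by
      conv_lhs => rw [← hu]
      exact hg y u
    have a3 : hf (RingHom.id k) J (y ᵥ* g.1.1) c = hf (RingHom.id k) J y c := by
      conv_lhs => rw [← hc]
      exact hg y c
    rw [a1, a2, a3]
  rw [← vecMul_vecMul, ← vecMul_vecMul, vecMul_ph h, vecMul_ph h, add_vecMul, e1]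
  congr 1
  rw [vecMul_I3, add_vecMul, add_vecMul, smul_vecMul, smul_vecMul, smul_vecMul, hu, hw, hc]

end alg

section two

variable {ι : Type} [Fintype ι] [DecidableEq ι] {k : Type} [NontriviallyNormedField k]
  {J₀ : Matrix ι ι k}

/-- the three vectors of the last hyperbolic pair and a vector of the anisotropic part -/
theorem exists_T3 (h : OF J₀) (s : ℕ) (i : Fin (s + 2)) : ∃ (v : ι → k) (η : k),
    T3 (hyp (s + 2) 1 J₀) (Pi.single (Sum.inl (Sum.inl i)) 1)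
      (η • Pi.single (Sum.inl (Sum.inr i)) 1) (e0 s v) η := by
  obtain ⟨j⟩ := h.ne
  obtain ⟨v, hv⟩ : ∃ v : ι → k, v = Pi.single j 1 := ⟨_, rfl⟩
  have hv0 : v ≠ 0 := by
    intro h0
    have h1 := congrFun h0 j
    rw [hv, Pi.single_eq_same] at h1
    exact one_ne_zero h1
  have hd := h.an v hv0
  have h2 := h.two
  refine ⟨v, -(2⁻¹ * (v ⬝ᵥ (J₀ *ᵥ v))), h.tr s, h2, neg_ne_zero.2 (mul_ne_zero (inv_ne_zero h2) hd),
    ?_, ?_, ?_, ?_, ?_, ?_⟩
  · rw [hf_hyp]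
    simp [hf, Pi.single_apply]
  · rw [hf_hyp]
    simp [hf, Pi.single_apply]
  · rw [hf_hyp]
    simp [hf, Pi.single_apply]
  · rw [hf_hyp]
    simp [hf, Pi.single_apply, e0]
  · rw [hf_hyp]
    simp [hf, Pi.single_apply, e0]
  · rw [hf_hyp]
    simp only [e0, Sum.elim_inl, Sum.elim_inr, Pi.zero_apply, map_zero, mul_zero,
      Finset.sum_const_zero, add_zero, zero_add]
    change v ⬝ᵥ (J₀ *ᵥ v) = _
    field_simp

variable {E : Type} [Group E] [TopologicalSpace E] [IsTopologicalGroup E]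
  [LocallyCompactSpace E] [SecondCountableTopology E] [MeasurableSpace E] [BorelSpace E]

/-- **Wall 1 in Witt index 2**: `z = 1` or `z = -1`. -/
theorem chain_w1OL [ProperSpace k] (h : OF J₀)
    {i₁ : EUF (RingHom.id k) 1 (hyp 2 1 J₀) →* E} (hι : Continuous i₁)
    (hp : ∀ C : Set E, IsCompact C → ∃ C' : Set (EUF (RingHom.id k) 1 (hyp 2 1 J₀)),
      IsCompact C' ∧ i₁ ⁻¹' C ⊆ C') {a : k} (ha : a ≠ 0) (ha1 : ‖a‖ < 1) {z : ℤ}
    (hz : z = 1 ∨ z = -1) :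
    ∃ (b : Fin 2 → ℕ → E) (𝒦 : Fin 2 → Set E),
      GChain (fun K : Set E => IsCompact K) (PingT E) 2 b 𝒦 ∧
      (∀ M, b 0 M = i₁ (tO h 0 ha (Pi.single 0 z)) ^ M) := by
  obtain ⟨K₀, k0⟩ := pps_w1O (q := 0) h hι hp ha ha1 hz
  obtain ⟨v, η, hT⟩ := exists_T3 h 0 1
  have hH : ∀ g : FormGroup (RingHom.id k) (hyp 2 1 J₀), g.1 ∈ EU (RingHom.id k) 1 (hyp 2 1 J₀) →
      g ∈ EUF (RingHom.id k) 1 (hyp 2 1 J₀) := fun g hg => hg
  obtain ⟨K, k1⟩ := pps_Ps hT (h.fm 0) hH hι hp (inv_ne_zero ha) (inv_gt ha ha1)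
  have h1 : (1 : Fin 2) ≠ 0 := by decide
  have hcm : ∀ x, Commute (tO h 0 ha (Pi.single 0 z)) (PsH hT (h.fm 0) hH x) := by
    intro x
    apply Subtype.ext
    have hd : ∀ y : Idx 2 ι → k, (∀ l, dgF 2 ι (a ^ 2) (Pi.single 0 z) l ≠ 1 → y l = 0) →
        y ᵥ* (tO h 0 ha (Pi.single 0 z)).1.1.1 = y := by
      intro y hy
      change y ᵥ* Matrix.diagonal (dgF 2 ι (a ^ 2) (Pi.single 0 z)) = y
      funext l
      rw [vecMul_diagonal]
      by_cases hl : dgF 2 ι (a ^ 2) (Pi.single 0 z) l = 1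
      · rw [hl, mul_one]
      · rw [hy l hl, zero_mul]
    refine comm_Ps hT ?_ ?_ ?_ x
    · refine hd _ fun l hl => ?_
      rw [Pi.single_apply, if_neg]
      rintro rfl
      exact hl (by simp [dgF, Pi.single_eq_of_ne h1])
    · refine hd _ fun l hl => ?_
      rw [Pi.smul_apply, Pi.single_apply, if_neg, smul_zero]
      rintro rfl
      exact hl (by simp [dgF, Pi.single_eq_of_ne h1])
    · refine hd _ fun l hl => ?_
      rcases l with l | l
      · rfl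
      · exact absurd rfl hl
  refine ⟨![fun N => i₁ (tO h 0 ha (Pi.single 0 z)) ^ N,
    fun N => i₁ (PsH hT (h.fm 0) hH (dg2 (inv_ne_zero ha))) ^ N],
    ![K₀, i₁ '' (PsH hT (h.fm 0) hH '' K)], gchain_pps ?_ ?_ ?_, fun M => rfl⟩
  · intro j
    fin_cases j
    · exact k0
    · exact k1
  · intro i j hij N M
    fin_cases i <;> fin_cases j <;> first | exact absurd hij (by decide) | skip
    exact ((hcm _).map i₁).pow_pow N M
  · intro i j hij N x hx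
    fin_cases i <;> fin_cases j <;> first | exact absurd hij (by decide) | skip
    obtain ⟨_, ⟨y, hy, rfl⟩, rfl⟩ := hx
    exact ((hcm y).map i₁).pow_left N

theorem stC_of {r : ℕ} {b : E} {c : Fin (r + 1) → ℕ → E} {𝒦 : Fin (r + 1) → Set E}
    (hc : GChain (fun K : Set E => IsCompact K) (PingT E) (r + 1) c 𝒦)
    (hb : ∀ M, c 0 M = b ^ M) : StC (r + 1) b :=
  ⟨c, 𝒦, hc, fun _ M => hb M⟩

/-- **The walls of the points start chains of full length** (every Witt index `s + 2 ≥ 2`). -/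
theorem stC_w1O [ProperSpace k] (h : OF J₀) (s : ℕ)
    {i₁ : EUF (RingHom.id k) 1 (hyp (s + 2) 1 J₀) →* E} (hι : Continuous i₁)
    (hp : ∀ C : Set E, IsCompact C → ∃ C' : Set (EUF (RingHom.id k) 1 (hyp (s + 2) 1 J₀)),
      IsCompact C' ∧ i₁ ⁻¹' C ⊆ C') {a : k} (ha : a ≠ 0) (ha1 : ‖a‖ < 1) {z : ℤ}
    (hz : z = 1 ∨ z = -1) : StC (s + 2) (i₁ (tO h s ha (Pi.single 0 z))) := by
  rcases s with _ | s
  · obtain ⟨b, 𝒦, h1, h2⟩ := chain_w1OL h hι hp ha ha1 hz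
    exact stC_of h1 h2
  · obtain ⟨b, 𝒦, h1, h2, -⟩ := chain_w1O (q := s) h hι hp ha ha1 hz
    exact stC_of h1 h2

/-- **The walls of the maximal spaces start chains of full length.** -/
theorem stC_wrO [ProperSpace k] (h : OF J₀) (s : ℕ)
    {i₁ : EUF (RingHom.id k) 1 (hyp (s + 2) 1 J₀) →* E} (hι : Continuous i₁)
    (hp : ∀ C : Set E, IsCompact C → ∃ C' : Set (EUF (RingHom.id k) 1 (hyp (s + 2) 1 J₀)),
      IsCompact C' ∧ i₁ ⁻¹' C ⊆ C') {a : k} (ha : a ≠ 0) (ha1 : ‖a‖ < 1) {z : ℤ}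
    (hz : z = 1 ∨ z = -1) : StC (s + 2) (i₁ (tO h s ha fun _ => z)) := by
  obtain ⟨b, 𝒦, h1, h2, -⟩ := chain_wrO (q := s) h hι hp ha ha1 (Units.mk0 a ha) ha1 hz
  exact stC_of h1 h2

theorem stC_b1O [ProperSpace k] (h : OF J₀) (s : ℕ)
    {i₁ : EUF (RingHom.id k) 1 (hyp (s + 2) 1 J₀) →* E} (hι : Continuous i₁)
    (hp : ∀ C : Set E, IsCompact C → ∃ C' : Set (EUF (RingHom.id k) 1 (hyp (s + 2) 1 J₀)),
      IsCompact C' ∧ i₁ ⁻¹' C ⊆ C') {a : k} (ha : a ≠ 0) (ha1 : ‖a‖ < 1) :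
    StC (s + 2) (i₁ (b1O h s ha)) ∧ StC (s + 2) (i₁ (b1O h s ha))⁻¹ := by
  refine ⟨stC_w1O h s hι hp ha ha1 (Or.inl rfl), ?_⟩
  rw [← tO_b1, ← map_inv, tO_inv, ← Pi.single_neg]
  exact stC_w1O h s hι hp ha ha1 (Or.inr rfl)

theorem stC_b2O [ProperSpace k] (h : OF J₀) (s : ℕ)
    {i₁ : EUF (RingHom.id k) 1 (hyp (s + 2) 1 J₀) →* E} (hι : Continuous i₁)
    (hp : ∀ C : Set E, IsCompact C → ∃ C' : Set (EUF (RingHom.id k) 1 (hyp (s + 2) 1 J₀)),
      IsCompact C' ∧ i₁ ⁻¹' C ⊆ C') {a : k} (ha : a ≠ 0) (ha1 : ‖a‖ < 1) :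
    StC (s + 2) (i₁ (b2O h s ha)) ∧ StC (s + 2) (i₁ (b2O h s ha))⁻¹ := by
  refine ⟨stC_wrO h s hι hp ha ha1 (Or.inl rfl), ?_⟩
  rw [← tO_b2, ← map_inv, tO_inv]
  exact stC_wrO h s hι hp ha ha1 (Or.inr rfl)

end two

end Vale.Agent.P092.H534.Or
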