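import Vale.Agent.P092.H411.S2.Ty
import Vale.Agent.P092.H534.Or.Two
import Vale.Agent.P092.H534.Or.Sys

/-!
P092 (helper534), stage CL-O, [CLO-WAL]: the middle types carry no mass, ANY masses with `SharpData`
(every amplification), source `EUF id 1 (hyp r 1 J₀)` (orthogonal groups), target any form `Fm`.

`ty_w1O` (wall of points, `r ≥ 3`), `ty_wrO` (wall of maximal subspaces, `r ≥ 2`), `ty_twoF`
(`r = 2`, any element which starts a chain of length 2). The Howe-Moore input `hmi` is a hypothesis.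
-/

set_option linter.all false

open scoped InnerProductSpace ENNReal
open Matrix Filter Topology Module

namespace Vale.Agent.P092.H534.Or

open Vale.Agent.P092.H200 Vale.Agent.P092.H761
open Vale.Agent.P092.H303 (FormGroup hyp Idx lam)
open Vale.Agent.P092.H714.Sg (Fm)
open Vale.Agent.P092.H370.Po (Sing)
open Vale.Agent.P092.H538 (ind ind_pos ind_neg)
open Vale.Agent.P092.H261 (PingT)
open Vale.Agent.P092.H933 (LocK)
open Vale.Agent.P092.H218.NR (HMIA)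
open Vale.Agent.P092.H618.HMK (Tests)
open Vale.Agent.P092.H618.PosF (pos_frm1)
open Vale.Agent.P092.H632.T2 (ZC g1 g1' gr gr' nmC)
open Vale.Agent.P092.H534.Ch (StC gaps_phR DecG)
open Vale.Agent.P092.H534.SpK (nw_cls)
open Vale.Agent.P092.H411.S2 (phm_rho gS1 gS1_tendsto tF_up comm_powN bS_commS bS_commKS fRow)
open Vale.Agent.P092.H411.ChS (bS KS bS_tendsto)
open Vale.Agent.P092.RC (GG)
open Vale.Agent.P092.CL (EUF OF)

variable {ι : Type} [Fintype ι] [DecidableEq ι] {k : Type} [NontriviallyNormedField k]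
  [ProperSpace k] {J₀ : Matrix ι ι k} {s : ℕ}
  {E : Type} [Group E] [TopologicalSpace E] [IsTopologicalGroup E]
  [LocallyCompactSpace E] [SecondCountableTopology E] [MeasurableSpace E] [BorelSpace E]
  {Γ : Type} [Group Γ] [DecidableEq Γ] {t : ℝ} {mass : E → (Γ → ℝ) → ℝ}
  {k' : Type} [NontriviallyNormedField k'] [ProperSpace k'] {n : Type} [Fintype n] [DecidableEq n]
  {σ' : k' →+* k'} {ε' : k'} {J : Matrix n n k'} {N r : ℕ} (e : n ≃ Fin (N + 1))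

theorem tO_KO (h : OF J₀) {a : k} (ha : a ≠ 0) {i j : Fin (s + 2)} (hij : i < j)
    {x : EUF (RingHom.id k) 1 (hyp (s + 2) 1 J₀)} (hx : x ∈ KO J₀ s j) :
    Commute (tO h s ha (lam s i)) x := by
  apply Subtype.ext
  exact tF_up s (idc k) (idd k) (mul_one 1) (id1 k) (pow_ne_zero 2 ha) rfl hij hx

theorem tO_tendsto (h : OF J₀) {a : k} (ha : a ≠ 0) (ha1 : 1 < ‖a‖) :
    Tendsto (fun M : ℕ => tO h s ha (lam s ⟨0, by omega⟩) ^ M) atTop
      (cocompact (EUF (RingHom.id k) 1 (hyp (s + 2) 1 J₀))) := by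
  have h1 := gS1_tendsto (σ := RingHom.id k) (ε := 1) (J₀ := J₀) s (one_lt_sq ha1)
    (pow_ne_zero 2 ha) rfl
  refine (tendsto_comap_iff.2 ?_).mono_right (comap_cocompact_le
    (continuous_subtype_val (p := fun x => x ∈ EUF (RingHom.id k) 1 (hyp (s + 2) 1 J₀))))
  exact h1

include e in
/-- **Wall of points, `r = s + 3`.** -/
theorem ty_w1O (h : OF J₀) {φ : EUF (RingHom.id k) 1 (hyp (s + 3) 1 J₀) →* E}
    (hd : SharpData t mass (fun K : Set E => IsCompact K) (PingT E)) (hφ : Continuous φ)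
    (hp : ∀ C : Set E, IsCompact C → ∃ C' : Set (EUF (RingHom.id k) 1 (hyp (s + 3) 1 J₀)),
      IsCompact C' ∧ φ ⁻¹' C ⊆ C')
    {a : k} (ha : a ≠ 0) (ha1 : ‖a‖ < 1) {z : ℤ} (hz : z = 1 ∨ z = -1)
    (hk' : LocK k') (hF : Fm σ' ε' J) (hσ' : ∀ x, ‖σ' x‖ = ‖x‖) (h2r : 2 * (s + 3) ≤ N + 1)
    (hW : ∀ Y, Sing σ' J Y → finrank k' Y ≤ s + 3)
    {q : Γ → FormGroup σ' J} (hph : ∀ γ γ', ∃ z ∈ ZC σ' J, q (γ * γ') = z * (q γ * q γ'))
    (disc : ∀ C : ℝ, {γ : Γ | nmC e (q γ) ≤ C}.Finite)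
    (hmi : ∀ {J : Type} [Fintype J] [DecidableEq J] {R : ℕ} {gap : J → Γ → ℝ} {cl : J → Fin R}
      {A : Finset (Fin R)} {i₀ : J}, Gaps gap cl → Tests gap cl A i₀ →
      HMIA mass gap cl A i₀ (fun n => φ (tO h (s + 1) ha (Pi.single 0 z)) ^ n)
        (φ.comp (lbO h s)) (cocompact (EUF (RingHom.id k) 1 (hyp (s + 2) 1 J₀))))
    {δ : ℝ} (hδ : 0 < δ) :
    ∃ ρ : ℝ, ∀ᶠ M : ℕ in atTop, mass (φ (tO h (s + 1) ha (Pi.single 0 z)) ^ M)
      (ind fun γ => ρ < g1' e (q γ) ∧ ρ < gr' e (s + 3) (q γ)) ≤ δ := by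
  obtain ⟨b, 𝒦, h1, h2, h3, h4⟩ := chain_w1O (q := s) h hφ hp ha ha1 hz
  exact pos_frm1 hd hk' (q := fun γ => H416.CL.rho e σ' J (q γ)) (phm_rho e hph) disc hσ'
    (det_JrF hF e) (fun γ => rho_rowF hF e (q γ))
    (by omega) h2r (iso_rhoF hF e hW) (θ := φ.comp (lbO h s)) (hφ.comp (continuous_lbO h s))
    (fun n x => comm_powN (comm_lbO h s ha z) n x) (m := s + 2) (by omega) rfl h1
    (bS := fun j M => tO h s (inv_ne_zero ha) (lam s j) ^ M) (𝒦S := fun j => KO J₀ s j)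
    (fun i j _ N M => (tO_comm h s _ _ (lam s i) (lam s j)).pow_pow N M)
    (fun i j hij N x hx => (tO_KO h (inv_ne_zero ha) hij hx).pow_left N) h2 h3 h4
    (tO_tendsto h (inv_ne_zero ha) (inv_gt ha ha1)) hmi hδ

include e in
/-- **Wall of maximal subspaces, `r = s + 2`.** -/
theorem ty_wrO (h : OF J₀) {φ : EUF (RingHom.id k) 1 (hyp (s + 2) 1 J₀) →* E}
    (hd : SharpData t mass (fun K : Set E => IsCompact K) (PingT E)) (hφ : Continuous φ)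
    (hp : ∀ C : Set E, IsCompact C → ∃ C' : Set (EUF (RingHom.id k) 1 (hyp (s + 2) 1 J₀)),
      IsCompact C' ∧ φ ⁻¹' C ⊆ C')
    {a : k} (ha : a ≠ 0) (ha1 : ‖a‖ < 1) {z : ℤ} (hz : z = 1 ∨ z = -1)
    (hk' : LocK k') (hF : Fm σ' ε' J) (hσ' : ∀ x, ‖σ' x‖ = ‖x‖) (h2r : 2 * (s + 2) ≤ N + 1)
    (hW : ∀ Y, Sing σ' J Y → finrank k' Y ≤ s + 2)
    {q : Γ → FormGroup σ' J} (hph : ∀ γ γ', ∃ z ∈ ZC σ' J, q (γ * γ') = z * (q γ * q γ'))
    (disc : ∀ C : ℝ, {γ : Γ | nmC e (q γ) ≤ C}.Finite)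
    (hmi : ∀ {J : Type} [Fintype J] [DecidableEq J] {R : ℕ} {gap : J → Γ → ℝ} {cl : J → Fin R}
      {A : Finset (Fin R)} {i₀ : J}, Gaps gap cl → Tests gap cl A i₀ →
      HMIA mass gap cl A i₀ (fun n => φ (tO h s ha fun _ => z) ^ n)
        (φ.comp (lvO h s)) (cocompact (SpecialLinearGroup (Fin (s + 2)) k)))
    {δ : ℝ} (hδ : 0 < δ) :
    ∃ ρ : ℝ, ∀ᶠ M : ℕ in atTop, mass (φ (tO h s ha fun _ => z) ^ M)
      (ind fun γ => ρ < g1' e (q γ) ∧ ρ < gr' e (s + 2) (q γ)) ≤ δ := by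
  obtain ⟨b, 𝒦, h1, h2, h3, h4⟩ := chain_wrO (q := s) h hφ hp ha ha1 (Units.mk0 a ha) ha1 hz
  exact pos_frm1 hd hk' (q := fun γ => H416.CL.rho e σ' J (q γ)) (phm_rho e hph) disc hσ'
    (det_JrF hF e) (fun γ => rho_rowF hF e (q γ))
    (by omega) h2r (iso_rhoF hF e hW) (θ := φ.comp (lvO h s)) (hφ.comp (continuous_lvO h s))
    (fun n x => comm_powN (comm_lvO h s ha z) n x) (m := s + 1) (by omega) rfl h1
    (bS := fun j M => bS (Units.mk0 a ha) j M) (𝒦S := fun j => KS k (m := s + 1) j)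
    (fun i j _ N M => bS_commS (Units.mk0 a ha) i j N M)
    (fun i j hij N x hx => bS_commKS (Units.mk0 a ha) hij N hx) h2 h3 h4
    (bS_tendsto ha1 (by omega)) hmi hδ

include e in
/-- **Witt index 2: no middle type.** -/
theorem ty_twoF (hd : SharpData t mass (fun K : Set E => IsCompact K) (PingT E)) {z : E}
    (hC : StC 2 z) (hk' : LocK k') (hF : Fm σ' ε' J) (hσ' : ∀ x, ‖σ' x‖ = ‖x‖)
    (h2r : 2 * 2 ≤ N + 1) (hW : ∀ Y, Sing σ' J Y → finrank k' Y ≤ 2)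
    {q : Γ → FormGroup σ' J} (hph : ∀ γ γ', ∃ z ∈ ZC σ' J, q (γ * γ') = z * (q γ * q γ'))
    (disc : ∀ C : ℝ, {γ : Γ | nmC e (q γ) ≤ C}.Finite) {δ : ℝ} (hδ : 0 < δ) :
    ∃ ρ : ℝ, ∀ M : ℕ, mass (z ^ M)
      (ind fun γ => ρ < g1' e (q γ) ∧ ρ < gr' e 2 (q γ)) ≤ δ := by
  classical
  obtain ⟨I, hI, gp, wt, cl, hs, hsur, hcomp, hfin, c, C, D, hc, hdec⟩ :=
    gaps_phR hk' (by omega) h2r (phm_rho e hph) hσ' (det_JrF hF e) (fun γ => rho_rowF hF e (q γ))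
      (iso_rhoF hF e hW) disc
  have hG : DecG h2r (fun γ => H416.CL.rho e σ' J (q γ)) gp cl c C D := hdec
  obtain ⟨b, 𝒦, hch, hb⟩ := hC
  obtain ⟨R, hR⟩ := nw_cls hd hch (by omega) le_rfl hs hcomp hfin hδ
  obtain ⟨ρ, hρ⟩ := hG.mid le_rfl hsur hc R
  refine ⟨ρ, fun M => ?_⟩
  rw [← hb (by omega) M]
  refine (hd.ind_mono _ fun γ hγ => ?_).trans (hR M)
  rcases hρ γ hγ.1 hγ.2 with h | ⟨x, h0, h1, -⟩
  · exact h
  · exfalso
    have := (cl x).2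
    omega

end Vale.Agent.P092.H534.Or
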