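import Vale.Agent.P092.H411.S2.Wal
import Vale.Agent.P092.H618.Or.Hmi
import Vale.Agent.P092.H534.Or.Ty

/-!
P092 (helper534), stage CL-O, [CLO-WAL], `t = 1`: the analytic input `Wal` of `CL/ExDefs` of both
walls of the source `EUF id 1 (hyp (s + 2) 1 J₀)` (orthogonal groups), on the picture of `H34` /
`H805.RowN`; target: `q : Γ → S'`, `ψ : S' →* FormGroup σ' J`, any form `Fm` of the same Witt index,
any local field.
-/

set_option linter.all false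

open scoped InnerProductSpace ENNReal
open Filter Topology ContinuousLinearMap MeasureTheory TopologicalSpace Module

namespace Vale.Agent.P092.H534.Or

open Vale.Agent.P092.SR Vale.Agent.P092.H160
open Vale.Agent.P092.H303 (FormGroup hyp Idx)
open Vale.Agent.P092.H714.Sg (Fm)
open Vale.Agent.P092.H370.Po (Sing)
open Vale.Agent.P092.H538 (ind ind_pos ind_neg)
open Vale.Agent.P092.H261 (PingT)
open Vale.Agent.P092.H933 (LocK)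
open Vale.Agent.P092.H632.T2 (ZC g1 g1' gr gr' nmC)
open Vale.Agent.P092.H534.Ch (StC)
open Vale.Agent.P092.RC (VR arep_VR KK pic lam₁ lam₂ XX Om Pic)
open Vale.Agent.P092.H805.RowN (Bd msE cov_VR cov_lx escE')
open Vale.Agent.P092.H805.Row (mpE)
open Vale.Agent.P092.H859.CL (st Fn)
open Vale.Agent.P092.H411.S2 (mas sharp_mas mas_eq ty_of proper_of coc_pow)
open Vale.Agent.P092.CL (EUF OF b1O b2O)

section con

variable {E : Type} [Group E] [TopologicalSpace E] [IsTopologicalGroup E] [LocallyCompactSpace E]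
  [SecondCountableTopology E] [T2Space E] [MeasurableSpace E] [BorelSpace E] [NoncompactSpace E]
  {Γ : Subgroup E} [DiscreteTopology Γ] [Countable Γ] [MeasurableSpace (E ⧸ Γ)]
  [BorelSpace (E ⧸ Γ)] {ν : Measure (E ⧸ Γ)} [IsProbabilityMeasure ν]
  (hν : ∀ g : E, ν.map (fun x => g • x) = ν)
  {Λ : Type} [Group Λ] [Countable Λ] {α : Γ →* (Ell2 Λ →L[ℂ] Ell2 Λ)} (hα : Frame α)
  {ι : Type} [Fintype ι] [DecidableEq ι] {k : Type} [NontriviallyNormedField k]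
  [ProperSpace k] {J₀ : Matrix ι ι k} {s : ℕ}
  {k' : Type} [NontriviallyNormedField k'] [ProperSpace k'] {n : Type} [Fintype n] [DecidableEq n]
  {σ' : k' →+* k'} {ε' : k'} {J : Matrix n n k'} {N r : ℕ} (e : n ≃ Fin (N + 1))

include e in
/-- **`ty`, wall of points** -/
theorem ty_b1O (h : OF J₀) {φ : EUF (RingHom.id k) 1 (hyp (s + 2) 1 J₀) →* E}
    (hΛ : ∀ g : Λ, g ≠ 1 → Set.Infinite {y : Λ | ∃ h, y = h * g * h⁻¹}) (hφ : Continuous φ)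
    (hp : ∀ C : Set E, IsCompact C → ∃ C' : Set (EUF (RingHom.id k) 1 (hyp (s + 2) 1 J₀)),
      IsCompact C' ∧ φ ⁻¹' C ⊆ C') {a : k} (ha : a ≠ 0) (ha1 : ‖a‖ < 1)
    (hk' : LocK k') (hF : Fm σ' ε' J) (hσ' : ∀ x, ‖σ' x‖ = ‖x‖) (h2r : 2 * (s + 2) ≤ N + 1)
    (hW : ∀ Y, Sing σ' J Y → finrank k' Y ≤ s + 2)
    {q : Γ → FormGroup σ' J} (hph : ∀ γ γ', ∃ z ∈ ZC σ' J, q (γ * γ') = z * (q γ * q γ'))
    (disc : ∀ C : ℝ, {γ : Γ | nmC e (q γ) ≤ C}.Finite) {δ : ℝ} (hδ : 0 < δ) :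
    ∃ ρ : ℝ, ∀ᶠ M : ℕ in atTop, mas hν hα ((φ (b1O h s ha))⁻¹ ^ M)
      (ind fun γ => ρ < g1' e (q γ) ∧ ρ < gr' e (s + 2) (q γ)) ≤ δ := by
  classical
  have hd := sharp_mas hν hα
  rcases s with _ | s
  · obtain ⟨ρ, hρ⟩ := ty_twoF e hd (stC_b1O h 0 hφ hp ha ha1).2 hk' hF hσ' h2r hW hph disc hδ
    exact ⟨ρ, Filter.Eventually.of_forall hρ⟩
  · have e1 : (φ (b1O h (s + 1) ha))⁻¹ = φ (tO h (s + 1) ha (Pi.single 0 (-1))) := by
      rw [← tO_b1, ← map_inv, tO_inv, ← Pi.single_neg]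
    rw [e1]
    refine ty_w1O e h hd hφ hp ha ha1 (Or.inr rfl) hk' hF hσ' h2r hW hph disc ?_ hδ
    intro J' _ _ R gap cl A i₀ hg hT
    exact H618.Or.hmi_w1O hν hα hΛ h hφ ha ha1.ne (by decide) (fun g F _ => mas_eq hν hα g F) hg hT

include e in
/-- **`ty`, wall of maximal subspaces** -/
theorem ty_b2O (h : OF J₀) {φ : EUF (RingHom.id k) 1 (hyp (s + 2) 1 J₀) →* E}
    (hΛ : ∀ g : Λ, g ≠ 1 → Set.Infinite {y : Λ | ∃ h, y = h * g * h⁻¹}) (hk : LocK k)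
    (hφ : Continuous φ)
    (hp : ∀ C : Set E, IsCompact C → ∃ C' : Set (EUF (RingHom.id k) 1 (hyp (s + 2) 1 J₀)),
      IsCompact C' ∧ φ ⁻¹' C ⊆ C') {a : k} (ha : a ≠ 0) (ha1 : ‖a‖ < 1)
    (hk' : LocK k') (hF : Fm σ' ε' J) (hσ' : ∀ x, ‖σ' x‖ = ‖x‖) (h2r : 2 * (s + 2) ≤ N + 1)
    (hW : ∀ Y, Sing σ' J Y → finrank k' Y ≤ s + 2)
    {q : Γ → FormGroup σ' J} (hph : ∀ γ γ', ∃ z ∈ ZC σ' J, q (γ * γ') = z * (q γ * q γ'))
    (disc : ∀ C : ℝ, {γ : Γ | nmC e (q γ) ≤ C}.Finite) {δ : ℝ} (hδ : 0 < δ) :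
    ∃ ρ : ℝ, ∀ᶠ M : ℕ in atTop, mas hν hα ((φ (b2O h s ha))⁻¹ ^ M)
      (ind fun γ => ρ < g1' e (q γ) ∧ ρ < gr' e (s + 2) (q γ)) ≤ δ := by
  classical
  have hd := sharp_mas hν hα
  have e1 : (φ (b2O h s ha))⁻¹ = φ (tO h s ha fun _ => -1) := by
    rw [← tO_b2, ← map_inv, tO_inv]
    rfl
  rw [e1]
  refine ty_wrO e h hd hφ hp ha ha1 (Or.inr rfl) hk' hF hσ' h2r hW hph disc ?_ hδ
  intro J' _ _ R gap cl A i₀ hg hT
  exact H618.Or.hmi_wrO hν hα hk hΛ h hφ ha ha1.ne (by decide) (fun g F _ => mas_eq hν hα g F) hg hT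

include e in
/-- **`Wal` of both walls, `t = 1`.** -/
theorem wal_O {S' P M : Type} [Group S'] {T : CL.Gau S' P M} {ψ : S' →* FormGroup σ' J}
    (hG1 : ∀ g, T.G1 g = g1 e (ψ g)) (hH1 : ∀ g, T.H1 g = g1' e (ψ g))
    (hG2 : ∀ g, T.G2 g = gr e (s + 2) (ψ g)) (hH2 : ∀ g, T.H2 g = gr' e (s + 2) (ψ g))
    (h : OF J₀) {φ : EUF (RingHom.id k) 1 (hyp (s + 2) 1 J₀) →* E}
    (hΛ : ∀ g : Λ, g ≠ 1 → Set.Infinite {y : Λ | ∃ h, y = h * g * h⁻¹}) (hk : LocK k)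
    (hφ : Continuous φ)
    {nm : EUF (RingHom.id k) 1 (hyp (s + 2) 1 J₀) → ℝ} (hc : ∀ C : ℝ, IsCompact {g | nm g ≤ C})
    (coc : ∀ b : ℕ → EUF (RingHom.id k) 1 (hyp (s + 2) 1 J₀),
      Tendsto (fun n => nm (b n)) atTop atTop →
      Tendsto (fun n => φ (b n)) atTop (cocompact E))
    {a : k} (ha : a ≠ 0) (ha1 : ‖a‖ < 1)
    (hb1 : Tendsto (fun n : ℕ => nm (b1O h s ha ^ n)) atTop atTop)
    (hb2 : Tendsto (fun n : ℕ => nm (b2O h s ha ^ n)) atTop atTop)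
    (hk' : LocK k') (hF : Fm σ' ε' J) (hσ' : ∀ x, ‖σ' x‖ = ‖x‖) (h2r : 2 * (s + 2) ≤ N + 1)
    (hW : ∀ Y, Sing σ' J Y → finrank k' Y ≤ s + 2)
    {q : Γ → S'} (hph : ∀ γ γ', ∃ z ∈ ZC σ' J, ψ (q (γ * γ')) = z * (ψ (q γ) * ψ (q γ')))
    (disc : ∀ C : ℝ, {γ : Γ | nmC e (ψ (q γ)) ≤ C}.Finite) :
    CL.Wal (mpE ν hα) (pic hν hα) (Bd ν hα) (msE hν hα) T q (Om ν Λ) (φ (b1O h s ha)) ∧
      CL.Wal (mpE ν hα) (pic hν hα) (Bd ν hα) (msE hν hα) T q (Om ν Λ) (φ (b2O h s ha)) := by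
  have hp := proper_of (φ := φ) hc coc
  obtain ⟨c1, c1'⟩ := stC_b1O h s hφ hp ha ha1
  obtain ⟨c2, c2'⟩ := stC_b2O h s hφ hp ha ha1
  have s11 := sys_ptF hν hα e (by omega) h2r c1 c1' hk' hF hσ' hW (q := fun γ => ψ (q γ)) hph disc
  have s12 := sys_mxF hν hα e (by omega) h2r c1 c1' hk' hF hσ' hW (q := fun γ => ψ (q γ)) hph disc
  have s21 := sys_ptF hν hα e (by omega) h2r c2 c2' hk' hF hσ' hW (q := fun γ => ψ (q γ)) hph disc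
  have s22 := sys_mxF hν hα e (by omega) h2r c2 c2' hk' hF hσ' hW (q := fun γ => ψ (q γ)) hph disc
  refine ⟨⟨?_, ?_, escE' hν hα (coc_pow coc hb1), ?_⟩, ⟨?_, ?_, escE' hν hα (coc_pow coc hb2), ?_⟩⟩
  · simp only [hG1, hH1]
    exact s11
  · simp only [hG2, hH2]
    exact s12
  · simp only [hH1, hH2]
    exact ty_of hν hα s11.fn (P := fun R γ => R < g1' e (ψ (q γ)) ∧ R < gr' e (s + 2) (ψ (q γ)))
      fun δ hδ => ty_b1O hν hα e h hΛ hφ hp ha ha1 hk' hF hσ' h2r hW (q := fun γ => ψ (q γ)) hph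
        disc hδ
  · simp only [hG1, hH1]
    exact s21
  · simp only [hG2, hH2]
    exact s22
  · simp only [hH1, hH2]
    exact ty_of hν hα s11.fn (P := fun R γ => R < g1' e (ψ (q γ)) ∧ R < gr' e (s + 2) (ψ (q γ)))
      fun δ hδ => ty_b2O hν hα e h hΛ hk hφ hp ha ha1 hk' hF hσ' h2r hW (q := fun γ => ψ (q γ)) hph
        disc hδ

end con

end Vale.Agent.P092.H534.Or
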