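import Vale.Agent.P092.CL.Ex
import Vale.Agent.P092.H632.T2.GokO
import Vale.Agent.P092.H534.Or.Wal

/-!
P092 (helper534), stage CL-O, [CLO-WAL]: **`WalStmt` for the letters `CL.ltO` of the orthogonal
groups**, every Witt index `s + 2`, every local field.
-/

set_option linter.all false

open scoped InnerProductSpace ENNReal
open Filter Topology ContinuousLinearMap MeasureTheory TopologicalSpace Module

namespace Vale.Agent.P092.H534.Or

open Vale.Agent.P092.SR Vale.Agent.P092.H160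
open Vale.Agent.P092.H303 (FormGroup hyp Idx)
open Vale.Agent.P092.H370.Po (SGr Sing WI)
open Vale.Agent.P092.H933 (LocK)
open Vale.Agent.P092.H632.T2 (ZC g1 g1' gr gr' nmC gau Std nm_rho scal_zc std_ltO)
open Vale.Agent.P092.CL (EUF OF b1O b2O ltO Lt Geo Adm WalStmt)

section std

variable {k : Type} [NontriviallyNormedField k] {n : Type} [Fintype n]
  [DecidableEq n] {N : ℕ} {σ : k →+* k} {ε : k} {J : Matrix n n k} {r : ℕ} {S V₁ V₂ : Type}
  [Group S] [MeasurableSpace V₁] [MeasurableSpace V₂] [MulAction S (SGr σ J 1)]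
  [MulAction S (SGr σ J r)] {L : Lt S (SGr σ J 1) (SGr σ J r) V₁ V₂} {φ : S →* FormGroup σ J}

theorem ph_stdO (hL : Std L φ) {Γ' : Type} [Group Γ'] {q : Γ' → S} (hq : L.PH q) (γ γ' : Γ') :
    ∃ z ∈ ZC σ J, φ (q (γ * γ')) = z * (φ (q γ) * φ (q γ')) := by
  obtain ⟨z, hz, e⟩ := hq γ γ'
  exact ⟨φ z, scal_zc (hL.z z hz), by rw [e, map_mul, map_mul]⟩

theorem fin_stdO (hL : Std L φ) (e : n ≃ Fin (N + 1)) {Γ' : Type} {q : Γ' → S}
    (hf : ∀ C : ℝ, {γ | L.nm (q γ) ≤ C}.Finite) (C : ℝ) : {γ | nmC e (φ (q γ)) ≤ C}.Finite := by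
  refine (hf C).subset fun γ hγ => ?_
  have h1 : L.nm (q γ) = nmC e (φ (q γ)) := (hL.nm _).trans (nm_rho e _)
  change L.nm (q γ) ≤ C
  rw [h1]
  exact hγ

end std

theorem card_leO {ι₀ : Type} [Fintype ι₀] {s N : ℕ} (e : Idx (s + 2) ι₀ ≃ Fin (N + 1)) :
    2 * (s + 2) ≤ N + 1 := by
  have hcard : Fintype.card (Idx (s + 2) ι₀) = N + 1 := by
    rw [Fintype.card_congr e, Fintype.card_fin]
  have : Fintype.card (Idx (s + 2) ι₀) = (s + 2) + (s + 2) + Fintype.card ι₀ := by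
    unfold Idx
    rw [Fintype.card_sum, Fintype.card_sum, Fintype.card_fin]
  omega

theorem noncompact_of {E : Type} [TopologicalSpace E] {u : ℕ → E}
    (h : Tendsto u atTop (cocompact E)) : NoncompactSpace E := by
  rw [← Filter.cocompact_neBot_iff]
  exact h.neBot

section lt

variable {k : Type} [NontriviallyNormedField k] [ProperSpace k] [MeasurableSpace k]
  [Fact (Continuous (RingHom.id k))] {ι₀ : Type}
  [Fintype ι₀] [DecidableEq ι₀] {s N : ℕ} {J₀ : Matrix ι₀ ι₀ k}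

/-- **[CLO-WAL].** -/
theorem walStmt_ltO (h : OF J₀) {a : k} {ha : a ≠ 0} (ha1 : ‖a‖ < 1) (hk : LocK k)
    (e : Idx (s + 2) ι₀ ≃ Fin (N + 1)) (hW : WI (RingHom.id k) (hyp (s + 2) 1 J₀) (s + 2))
    {μ₁ : Measure k} {μ₂ : Measure (ι₀ → k)} (hG : Geo (ltO h s ha μ₁ μ₂))
    {bp : FormGroup (RingHom.id k) (hyp (s + 2) 1 J₀) → SGr (RingHom.id k) (hyp (s + 2) 1 J₀) 1}
    {bm : FormGroup (RingHom.id k) (hyp (s + 2) 1 J₀) →
      SGr (RingHom.id k) (hyp (s + 2) 1 J₀) (s + 2)}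
    {E : Type} [Group E] [TopologicalSpace E] [IsTopologicalGroup E] [LocallyCompactSpace E]
    [SecondCountableTopology E] [T2Space E]
    {ι : EUF (RingHom.id k) 1 (hyp (s + 2) 1 J₀) →* E} (hA : Adm (ltO h s ha μ₁ μ₂) ι) :
    WalStmt (ltO h s ha μ₁ μ₂) (gau e (s + 2) (Subgroup.subtype _) bp bm) ι := by
  intro _ _ Γ _ _ _ _ ν _ hν Λ _ _ α hα hΛ q hq hph hfin
  haveI := noncompact_of (hA.coc _ hG.nm_b1)
  have hL := std_ltO (s := s) h ha μ₁ μ₂
  exact wal_O hν hα e (ψ := Subgroup.subtype _) (fun _ => rfl) (fun _ => rfl) (fun _ => rfl)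
    (fun _ => rfl) h hΛ hk hA.cι hG.nm_cpt hA.coc ha ha1 hG.nm_b1 hG.nm_b2 hk (h.fm s)
    (fun _ => rfl) (card_leO e) hW.2 (ph_stdO hL hph) (fin_stdO hL e hfin)

end lt

end Vale.Agent.P092.H534.Or
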