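import Vale.Agent.P092.H34.X.HmiG
import Vale.Agent.P092.H618.Or.Moore
import Vale.Agent.P092.H534.Or.Ty

/-!
P092 (helper534), stage CL-O, all amplifications: the middle types carry no mass along the two walls
of the source `EUF id 1 (hyp (s + 2) 1 J₀)`, for the honest family (masses `mX`), target any form
`Fm` of Witt index at most `s + 2`.
-/

set_option linter.all false

open scoped InnerProductSpace ENNReal
open Matrix Filter Topology Module ContinuousLinearMap MeasureTheory TopologicalSpace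

namespace Vale.Agent.P092.H534.Or

open Vale.Agent.P092.SR Vale.Agent.P092.H160
open Vale.Agent.P092.RC (PicF)
open Vale.Agent.P092.H538 (ind)
open Vale.Agent.P092.H933 (LocK)
open Vale.Agent.P092.H21 (Hon mT WT)
open Vale.Agent.P092.SNT (TVEF)
open Vale.Agent.P092.H303 (Idx hyp FormGroup)
open Vale.Agent.P092.H714.Sg (Fm)
open Vale.Agent.P092.H370.Po (Sing)
open Vale.Agent.P092.H632.T2 (ZC g1 g1' gr gr' nmC)
open Vale.Agent.P092.H34.HMK (mX sharp_mX hmiT_gen)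
open Vale.Agent.P092.CL (EUF OF b1O b2O)

section fam

variable {E : Type} [Group E] [TopologicalSpace E] [IsTopologicalGroup E] [LocallyCompactSpace E]
  [SecondCountableTopology E] [T2Space E] [MeasurableSpace E] [BorelSpace E]
  {Γ : Subgroup E} [DiscreteTopology Γ] [Countable Γ] [MeasurableSpace (E ⧸ Γ)]
  [BorelSpace (E ⧸ Γ)] {ν : Measure (E ⧸ Γ)} [IsProbabilityMeasure ν]
  (hν : ∀ g : E, ν.map (fun x => g • x) = ν)
  {κ κ' ℋ : Type} [Fintype κ] [Fintype κ'] [NormedAddCommGroup ℋ] [InnerProductSpace ℂ ℋ]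
  [CompleteSpace ℋ] {V R₁ R₂ : Γ →* (ℋ →L[ℂ] ℋ)} {ξ : κ → ℋ} {ξ' : κ' → ℋ}
  (hT : Tri V R₁ R₂ ξ) (hh : Hon R₁ R₂ ξ) (hT' : Tri R₁ V R₂ ξ')
  (hΓ : ∀ g : Γ, g ≠ 1 → Set.Infinite {y : Γ | ∃ h, y = h * g * h⁻¹})
  {κ₀ : Type} [Fintype κ₀] {Ω : κ₀ → Lp ℋ 2 (H85.cdat ν hν).μ}
  (pic : PicF (H34.Ind.pi (H85.cdat ν hν) (V := V) hT.adjV) (H34.Ind.lam (H85.cdat ν hν) R₁)
    (WT (H85.cdat ν hν) R₂) Ω)
  (htv : TVEF (H34.Ind.pi (H85.cdat ν hν) (V := V) hT.adjV) (H34.Ind.lam (H85.cdat ν hν) R₁)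
    (WT (H85.cdat ν hν) R₂) Ω)
  {ι : Type} [Fintype ι] [DecidableEq ι] {k : Type} [NontriviallyNormedField k]
  [ProperSpace k] {J₀ : Matrix ι ι k} {s : ℕ}
  {φ : EUF (RingHom.id k) 1 (hyp (s + 2) 1 J₀) →* E}
  {k' : Type} [NontriviallyNormedField k'] [ProperSpace k'] {n : Type} [Fintype n] [DecidableEq n]
  {σ' : k' →+* k'} {ε' : k'} {J : Matrix n n k'} {N : ℕ} (e : n ≃ Fin (N + 1))

include hh hT' hΓ pic htv e

/-- **wall of points, all `t`** -/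
theorem tyT_b1O (h : OF J₀) (hk : LocK k) (hφ : Continuous φ)
    (hp : ∀ C : Set E, IsCompact C → ∃ C' : Set (EUF (RingHom.id k) 1 (hyp (s + 2) 1 J₀)),
      IsCompact C' ∧ φ ⁻¹' C ⊆ C') {a : k} (ha : a ≠ 0) (ha1 : ‖a‖ < 1)
    (hk' : LocK k') (hF : Fm σ' ε' J) (hσ' : ∀ x, ‖σ' x‖ = ‖x‖) (h2r : 2 * (s + 2) ≤ N + 1)
    (hW : ∀ Y, Sing σ' J Y → finrank k' Y ≤ s + 2)
    {q : Γ → FormGroup σ' J} (hph : ∀ γ γ', ∃ z ∈ ZC σ' J, q (γ * γ') = z * (q γ * q γ'))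
    (disc : ∀ C : ℝ, {γ : Γ | nmC e (q γ) ≤ C}.Finite) (δ : ℝ) (hδ : 0 < δ) :
    ∃ ρ : ℝ, ∀ᶠ M : ℕ in atTop, mX hν hT ((φ (b1O h s ha))⁻¹ ^ M)
      (ind fun γ => γ ∈ {γ | ρ < g1' e (q γ) ∧ ρ < gr' e (s + 2) (q γ)}) ≤ δ := by
  classical
  have hd := sharp_mX hν hT hT' hΓ
  rcases s with _ | s
  · obtain ⟨ρ, hρ⟩ := ty_twoF e hd (stC_b1O h 0 hφ hp ha ha1).2 hk' hF hσ' h2r hW hph disc hδ
    exact ⟨ρ, Eventually.of_forall hρ⟩
  · have e1 : (φ (b1O h (s + 1) ha))⁻¹ = φ (tO h (s + 1) ha (Pi.single 0 (-1))) := by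
      rw [← tO_b1, ← map_inv, tO_inv, ← Pi.single_neg]
    rw [e1]
    refine ty_w1O e h hd hφ hp ha ha1 (Or.inr rfl) hk' hF hσ' h2r hW hph disc
      (fun {J} _ _ {R} {gap} {cl} {A} {i₀} hg hTs => ?_) hδ
    exact hmiT_gen hν hT hh hT' hΓ pic htv hφ (continuous_lbO h s)
      (H618.Or.hm_EUF h s) (fun x => (comm_lbO h s ha (-1) x).symm)
      (H618.Or.moore_tO h (s + 1) ha ha1.ne (by
        intro h0
        have h1 := congrFun h0 0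
        rw [Pi.single_eq_same] at h1
        exact absurd h1 (by norm_num))) hg hTs

/-- **wall of maximal subspaces, all `t`** -/
theorem tyT_b2O (h : OF J₀) (hk : LocK k) (hφ : Continuous φ)
    (hp : ∀ C : Set E, IsCompact C → ∃ C' : Set (EUF (RingHom.id k) 1 (hyp (s + 2) 1 J₀)),
      IsCompact C' ∧ φ ⁻¹' C ⊆ C') {a : k} (ha : a ≠ 0) (ha1 : ‖a‖ < 1)
    (hk' : LocK k') (hF : Fm σ' ε' J) (hσ' : ∀ x, ‖σ' x‖ = ‖x‖) (h2r : 2 * (s + 2) ≤ N + 1)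
    (hW : ∀ Y, Sing σ' J Y → finrank k' Y ≤ s + 2)
    {q : Γ → FormGroup σ' J} (hph : ∀ γ γ', ∃ z ∈ ZC σ' J, q (γ * γ') = z * (q γ * q γ'))
    (disc : ∀ C : ℝ, {γ : Γ | nmC e (q γ) ≤ C}.Finite) (δ : ℝ) (hδ : 0 < δ) :
    ∃ ρ : ℝ, ∀ᶠ M : ℕ in atTop, mX hν hT ((φ (b2O h s ha))⁻¹ ^ M)
      (ind fun γ => γ ∈ {γ | ρ < g1' e (q γ) ∧ ρ < gr' e (s + 2) (q γ)}) ≤ δ := by
  classical
  have hd := sharp_mX hν hT hT' hΓ
  have e1 : (φ (b2O h s ha))⁻¹ = φ (tO h s ha fun _ => -1) := by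
    rw [← tO_b2, ← map_inv, tO_inv]
    rfl
  rw [e1]
  refine ty_wrO e h hd hφ hp ha ha1 (Or.inr rfl) hk' hF hσ' h2r hW hph disc
    (fun {J} _ _ {R} {gap} {cl} {A} {i₀} hg hTs => ?_) hδ
  exact hmiT_gen hν hT hh hT' hΓ pic htv hφ (continuous_lvO h s)
    (H933.hm_sl hk (by omega)) (fun x => (comm_lvO h s ha (-1) x).symm)
    (H618.Or.moore_tO h s ha ha1.ne (by
      intro h0
      exact absurd (congrFun h0 0) (by norm_num))) hg hTs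

end fam

end Vale.Agent.P092.H534.Or
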