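import Vale.Agent.P092.H21.C.ExT
import Vale.Agent.P092.H534.Or.TyT
import Vale.Agent.P092.H534.Or.Stmt

/-!
P092 (helper534), stage CL-O, all amplifications: **`MassStmt` for the letters `CL.ltO` of the
orthogonal groups**, every Witt index `s + 2`, every local field.
-/

set_option linter.all false

open scoped InnerProductSpace ENNReal
open Filter Topology ContinuousLinearMap MeasureTheory TopologicalSpace Module

namespace Vale.Agent.P092.H534.Or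

open Vale.Agent.P092.H160 Vale.Agent.P092.SR
open Vale.Agent.P092.H933 (LocK)
open Vale.Agent.P092.H303 (FormGroup hyp Idx)
open Vale.Agent.P092.H714.Sg (Fm)
open Vale.Agent.P092.H370.Po (SGr Sing WI)
open Vale.Agent.P092.H632.T2 (ZC g1 g1' gr gr' nmC gau Std nm_rho scal_zc std_ltO)
open Vale.Agent.P092.H534.Ch (StC)
open Vale.Agent.P092.H411.S2 (proper_of)
open Vale.Agent.P092.H21 (arepT covFamT ET_lx Hon)
open Vale.Agent.P092.H21.C
open Vale.Agent.P092.CL (EUF OF b1O b2O ltO Lt Geo Adm)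

section std

variable {k : Type} [NontriviallyNormedField k] [ProperSpace k] {n : Type} [Fintype n]
  [DecidableEq n] {N : ℕ} {σ : k →+* k} {ε : k} {J : Matrix n n k} {r : ℕ} {S V₁ V₂ : Type}
  [Group S] [MeasurableSpace V₁] [MeasurableSpace V₂] [MulAction S (SGr σ J 1)]
  [MulAction S (SGr σ J r)] {L : Lt S (SGr σ J 1) (SGr σ J r) V₁ V₂} {φ : S →* FormGroup σ J}
  {bp : FormGroup σ J → SGr σ J 1} {bm : FormGroup σ J → SGr σ J r}
  {E : Type} [Group E] [TopologicalSpace E] [IsTopologicalGroup E] [LocallyCompactSpace E]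
  [SecondCountableTopology E] [T2Space E] [MeasurableSpace E] [BorelSpace E]
  {Γ : Subgroup E} [DiscreteTopology Γ] [MeasurableSpace (E ⧸ Γ)] [BorelSpace (E ⧸ Γ)]
  {ν : Measure (E ⧸ Γ)} [IsProbabilityMeasure ν] [Countable Γ]
  (hν : ∀ g : E, ν.map (fun x => g • x) = ν)
  {ℋ κ κ' : Type} [Fintype κ] [Fintype κ'] [NormedAddCommGroup ℋ] [InnerProductSpace ℂ ℋ]
  [CompleteSpace ℋ] {V R₁ R₂ : Γ →* (ℋ →L[ℂ] ℋ)} {ξ : κ → ℋ} {ξ' : κ' → ℋ}
  (hT : Tri V R₁ R₂ ξ)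
  (hΓ : ∀ g : Γ, g ≠ 1 → Set.Infinite {y : Γ | ∃ h, y = h * g * h⁻¹}) (hT' : Tri R₁ V R₂ ξ')

include hΓ hT' in
/-- **The near-wall masses, all `t`**, any form `Fm`. -/
theorem nrmT_stdF (hL : Std L φ) (hk : LocK k) (hσ : ∀ x, ‖σ x‖ = ‖x‖) (e : n ≃ Fin (N + 1))
    (hr : 2 ≤ r) (h2r : 2 * r ≤ N + 1) (hF : Fm σ ε J) (hW : ∀ Y, Sing σ J Y → finrank k Y ≤ r)
    {b : E} (c : StC r b) (c' : StC r b⁻¹) {q : Γ → S} (hq : L.PH q)
    (hf : ∀ C : ℝ, {γ | L.nm (q γ) ≤ C}.Finite) :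
    NrmT hν hT b (fun γ => (gau e r φ bp bm).G1 (q γ)) (fun γ => (gau e r φ bp bm).H1 (q γ)) ∧
      NrmT hν hT b (fun γ => (gau e r φ bp bm).G2 (q γ))
        fun γ => (gau e r φ bp bm).H2 (q γ) :=
  ⟨fun δ hδ => nrm_ptF Γ ν hν e (arepT hT hΓ hT') (covFamT hT hT') (ET_lx hT hT') hr h2r c c' hk hF
    hσ hW (ph_stdO hL hq) (fin_stdO hL e hf) hδ,
  fun δ hδ => nrm_mxF Γ ν hν e (arepT hT hΓ hT') (covFamT hT hT') (ET_lx hT hT') hr h2r c c' hk hF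
    hσ hW (ph_stdO hL hq) (fin_stdO hL e hf) hδ⟩

end std

section lt

variable {k : Type} [NontriviallyNormedField k] [ProperSpace k] [MeasurableSpace k]
  [Fact (Continuous (RingHom.id k))] {ι₀ : Type}
  [Fintype ι₀] [DecidableEq ι₀] {s N : ℕ} {J₀ : Matrix ι₀ ι₀ k}

/-- **[CL-MASS] for `CL.ltO`, all `t`.** -/
theorem massStmt_ltO (h : OF J₀) {a : k} {ha : a ≠ 0} (ha1 : ‖a‖ < 1) (hk : LocK k)
    (e : Idx (s + 2) ι₀ ≃ Fin (N + 1)) (hW : WI (RingHom.id k) (hyp (s + 2) 1 J₀) (s + 2))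
    {μ₁ : Measure k} {μ₂ : Measure (ι₀ → k)} (hG : Geo (ltO h s ha μ₁ μ₂))
    {bp : FormGroup (RingHom.id k) (hyp (s + 2) 1 J₀) → SGr (RingHom.id k) (hyp (s + 2) 1 J₀) 1}
    {bm : FormGroup (RingHom.id k) (hyp (s + 2) 1 J₀) →
      SGr (RingHom.id k) (hyp (s + 2) 1 J₀) (s + 2)}
    {E : Type} [Group E] [TopologicalSpace E] [IsTopologicalGroup E] [LocallyCompactSpace E]
    [SecondCountableTopology E] [T2Space E]
    {ι : EUF (RingHom.id k) 1 (hyp (s + 2) 1 J₀) →* E} (hA : Adm (ltO h s ha μ₁ μ₂) ι) :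
    MassStmt (ltO h s ha μ₁ μ₂) (gau e (s + 2) (Subgroup.subtype _) bp bm) ι := by
  intro _ _ Γ _ _ _ _ ν _ hν κ κ' ℋ _ _ _ _ _ V R₁ R₂ ξ ξ' hT hh hT' hΓ κ₀ _ Ω pic htv q hq hph hfin
  have hp := proper_of hG.nm_cpt hA.coc
  have hL := std_ltO (s := s) h ha μ₁ μ₂
  have h2r := card_leO e
  have c1 := stC_b1O h s hA.cι hp ha ha1
  have c2 := stC_b2O h s hA.cι hp ha ha1
  have n1 := nrmT_stdF hν hT hΓ hT' (bp := bp) (bm := bm) hL hk (fun _ => rfl) e (by omega) h2r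
    (h.fm s) hW.2 c1.1 c1.2 hph hfin
  have n2 := nrmT_stdF hν hT hΓ hT' (bp := bp) (bm := bm) hL hk (fun _ => rfl) e (by omega) h2r
    (h.fm s) hW.2 c2.1 c2.2 hph hfin
  exact ⟨⟨n1.1, n1.2, tyT_b1O hν hT hh hT' hΓ pic htv e h hk hA.cι hp ha ha1 hk (h.fm s)
      (fun _ => rfl) h2r hW.2 (ph_stdO hL hph) (fin_stdO hL e hfin)⟩,
    ⟨n2.1, n2.2, tyT_b2O hν hT hh hT' hΓ pic htv e h hk hA.cι hp ha ha1 hk (h.fm s)
      (fun _ => rfl) h2r hW.2 (ph_stdO hL hph) (fin_stdO hL e hfin)⟩⟩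

end lt

end Vale.Agent.P092.H534.Or
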