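import Vale.Agent.P092.H534.Or.Lb
import Vale.Agent.P092.H534.Ch.SysR
import Vale.Agent.P092.CL.LtO

/-!
P092 (helper534), stage CL-O, [CLO-NRM]: nested chains of the two walls of
`S = EUF id 1 (hyp (s + 2) 1 J₀)` (orthogonal groups, `J₀` anisotropic, `ι` nonempty) in every group
`E` with a proper continuous homomorphism `i₁ : S →* E`.

`chain_w1O` (`s + 2 ≥ 3`, tail in the lower block `EUF id 1 (hyp (s + 1) 1 J₀)`), `chain_wrO` (tail
in `SL_(s+2)`), `chain_w1OL` (`s = 0`); `stC_b1O`, `stC_b2O`: all `s`.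
-/

set_option linter.all false

open Matrix Set Topology Filter

namespace Vale.Agent.P092.H534.Or

open Vale.Agent.P092.H303
open Vale.Agent.P092.H534.Ch
open Vale.Agent.P092.H411 Vale.Agent.P092.H411.S2
open Vale.Agent.P092.H761 (GChain)
open Vale.Agent.P092.H261 (PingT)
open Vale.Agent.P092.H701 (tor dg elem slRow dg_self dg_gt tor_comm tor_elem)
open Vale.Agent.P092.H411.ChS (bS KS)
open Vale.Agent.P092.RC (GG)
open Vale.Agent.P092.H714.Cl (hf hf_add_left hf_smul_left hf_add_right hf_smul_right mem_formGroup)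
open Vale.Agent.P092.H714.Sg (Fm)
open Vale.Agent.P092.H370.Fo (EU EP ei ei_mem_EU EU_le vecMul_ei)
open Vale.Agent.P092.H899.Ort (Om Good Aniso hyp_single hyp_single')
open Vale.Agent.P092.CL (EUF OF b1O b2O e0)

section mem

variable {ι : Type} [Fintype ι] [DecidableEq ι] {k : Type} [NontriviallyNormedField k]
  {J₀ : Matrix ι ι k}

theorem mem_EUF {n : Type} [Fintype n] [DecidableEq n] {σ : k →+* k} {ε : k} {J : Matrix n n k}
    {g : FormGroup σ J} (h : g.1 ∈ EU σ ε J) : g ∈ EUF σ ε J := h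

theorem up_mem_EU (h : OF J₀) (q : ℕ) (j : Fin (q + 2)) (t : k) :
    root2 (ra_ne_rb (ι := ι) q j) (ra'_ne_rb' q j).symm t (-t) ∈
      EU (RingHom.id k) 1 (hyp (q + 2) 1 J₀) := by
  rw [h.eu q]
  exact H899.Ort.up_mem_om (h.good' q) j t

theorem lo_mem_EU (h : OF J₀) (q : ℕ) (j : Fin (q + 2)) (t : k) :
    root2 (ra_ne_rb (ι := ι) q j).symm (ra'_ne_rb' q j) t (-t) ∈
      EU (RingHom.id k) 1 (hyp (q + 2) 1 J₀) := by
  rw [h.eu q]
  exact H899.Ort.lo_mem_om (h.good' q) j t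

theorem sg_one (q : ℕ) (j : Fin (q + 2)) : sg q (1 : k) j = -1 := by
  unfold sg
  split_ifs <;> rfl

theorem idd (k : Type) [NontriviallyNormedField k] :
    ∀ x : k, (RingHom.id k) ((RingHom.id k) x) = x := fun _ => rfl

theorem id1 (k : Type) [NontriviallyNormedField k] : (RingHom.id k) (1 : k) = 1 := rfl

theorem idc (k : Type) [NontriviallyNormedField k] : Continuous (RingHom.id k) := continuous_id

/-- the compact sets of the short roots are in `EUF` -/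
theorem fRow_K (h : OF J₀) (q : ℕ) (hc : Continuous (RingHom.id k))
    (hσ : ∀ x, (RingHom.id k) ((RingHom.id k) x) = x) (hε : (1 : k) * 1 = 1)
    (hσε : (RingHom.id k) (1 : k) = 1) (j : Fin (q + 2)) :
    (fRow q J₀ hc hσ hε hσε j).K ⊆ EUF (RingHom.id k) 1 (hyp (q + 2) 1 J₀) := by
  rintro _ (⟨t, -, rfl⟩ | ⟨t, -, rfl⟩)
  · refine mem_EUF ?_
    change root2 (ra_ne_rb q j) (ra'_ne_rb' q j).symm t (sg q 1 j * t) ∈ _
    rw [sg_one, neg_one_mul]
    exact up_mem_EU h q j t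
  · refine mem_EUF ?_
    change root2 (ra_ne_rb q j).symm (ra'_ne_rb' q j) t (sg q 1 j * t) ∈ _
    rw [sg_one, neg_one_mul]
    exact lo_mem_EU h q j t

/-- the torus of `EUF` -/
noncomputable def tO (h : OF J₀) (s : ℕ) {a : k} (ha : a ≠ 0) (l : Fin (s + 2) → ℤ) :
    EUF (RingHom.id k) 1 (hyp (s + 2) 1 J₀) :=
  ⟨tF (RingHom.id k) 1 J₀ (s + 2) (pow_ne_zero 2 ha) rfl l, h.tor_mem s ha l⟩

theorem tO_b1 (h : OF J₀) (s : ℕ) {a : k} (ha : a ≠ 0) :
    tO h s ha (Pi.single 0 1) = b1O h s ha := rfl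

theorem tO_b2 (h : OF J₀) (s : ℕ) {a : k} (ha : a ≠ 0) : tO h s ha (fun _ => 1) = b2O h s ha := rfl

theorem tO_inv (h : OF J₀) (s : ℕ) {a : k} (ha : a ≠ 0) (l : Fin (s + 2) → ℤ) :
    (tO h s ha l)⁻¹ = tO h s ha (-l) :=
  Subtype.ext (tF_inv (s + 2) (pow_ne_zero 2 ha) rfl l)

theorem tO_comm (h : OF J₀) (s : ℕ) {a b : k} (ha : a ≠ 0) (hb : b ≠ 0) (l l' : Fin (s + 2) → ℤ) :
    Commute (tO h s ha l) (tO h s hb l') := by
  apply Subtype.ext
  apply Subtype.ext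
  apply Subtype.ext
  change Matrix.diagonal (dgF (s + 2) ι (a ^ 2) l) * Matrix.diagonal (dgF (s + 2) ι (b ^ 2) l') =
    Matrix.diagonal (dgF (s + 2) ι (b ^ 2) l') * Matrix.diagonal (dgF (s + 2) ι (a ^ 2) l)
  rw [diagonal_mul_diagonal, diagonal_mul_diagonal]
  congr 1
  funext x
  exact mul_comm _ _

/-- **the lower block** of `EUF` -/
noncomputable def lbO (h : OF J₀) (s : ℕ) : EUF (RingHom.id k) 1 (hyp (s + 2) 1 J₀) →*
    EUF (RingHom.id k) 1 (hyp (s + 3) 1 J₀) :=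
  ((lb (RingHom.id k) 1 J₀ (s + 2)).comp
    (EUF (RingHom.id k) 1 (hyp (s + 2) 1 J₀)).subtype).codRestrict _ fun g =>
      lb_mem_EU (h.fm s) g.2

theorem lbO_coe (h : OF J₀) (s : ℕ) (g : EUF (RingHom.id k) 1 (hyp (s + 2) 1 J₀)) :
    ((lbO h s g : EUF (RingHom.id k) 1 (hyp (s + 3) 1 J₀)) : FormGroup _ _) =
      lb (RingHom.id k) 1 J₀ (s + 2) g.1 := rfl

theorem continuous_lbO (h : OF J₀) (s : ℕ) : Continuous (lbO h s) :=
  Continuous.subtype_mk (continuous_lb.comp continuous_subtype_val) _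

theorem lbO_inj (h : OF J₀) (s : ℕ) : Function.Injective (lbO h s) := fun x y hxy =>
  Subtype.ext (lb_inj (congrArg Subtype.val hxy))

theorem lv_mem_EU (h : OF J₀) (s : ℕ) (hσ : ∀ x, (RingHom.id k) ((RingHom.id k) x) = x)
    (g : SpecialLinearGroup (Fin (s + 2)) k) :
    (lv (RingHom.id k) 1 J₀ hσ (s + 2) g).1 ∈ EU (RingHom.id k) 1 (hyp (s + 2) 1 J₀) := by
  have key : (EU (RingHom.id k) 1 (hyp (s + 2) 1 J₀)).comap
      ((FormGroup (RingHom.id k) (hyp (s + 2) 1 J₀)).subtype.comp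
        (lv (RingHom.id k) 1 J₀ hσ (s + 2))) = ⊤ := by
    refine H899.eq_top_of_e _ fun i j hij t => ?_
    change (lv (RingHom.id k) 1 J₀ hσ (s + 2) (Matrix.SpecialLinearGroup.transvection hij t)).1 ∈
      EU (RingHom.id k) 1 (hyp (s + 2) 1 J₀)
    have e0 : Matrix.SpecialLinearGroup.transvection hij t = elem hij t :=
      Subtype.ext (Matrix.SpecialLinearGroup.transvection_coe hij t)
    have h1 : (Sum.inl (Sum.inl i) : Idx (s + 2) ι) ≠ Sum.inl (Sum.inl j) := by simpa using hij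
    have h2 : (Sum.inl (Sum.inr j) : Idx (s + 2) ι) ≠ Sum.inl (Sum.inr i) := by
      simpa using hij.symm
    have e : (lv (RingHom.id k) 1 J₀ hσ (s + 2) (elem hij t)).1 = root2 h1 h2 t (-t) := by
      apply Subtype.ext
      exact lv_elem hσ hij t h1 h2
    rw [e0, e, h.eu s]
    exact H899.Ort.root2_mem_om (h.good' s).sym (fun x => hyp_single _ _ _ _)
      (fun x => hyp_single' _ _ _ _) (by simp) (by simp) h1 h2 t
  have h1 : g ∈ (EU (RingHom.id k) 1 (hyp (s + 2) 1 J₀)).comap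
      ((FormGroup (RingHom.id k) (hyp (s + 2) 1 J₀)).subtype.comp
        (lv (RingHom.id k) 1 J₀ hσ (s + 2))) := by
    rw [key]
    exact Subgroup.mem_top g
  exact h1

/-- **the Levi block** of `EUF` -/
noncomputable def lvO (h : OF J₀) (s : ℕ) : SpecialLinearGroup (Fin (s + 2)) k →*
    EUF (RingHom.id k) 1 (hyp (s + 2) 1 J₀) :=
  (lv (RingHom.id k) 1 J₀ (idd k) (s + 2)).codRestrict _ fun g => lv_mem_EU h s (idd k) g

theorem lvO_coe (h : OF J₀) (s : ℕ) (g : SpecialLinearGroup (Fin (s + 2)) k) :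
    ((lvO h s g : EUF (RingHom.id k) 1 (hyp (s + 2) 1 J₀)) : FormGroup _ _) =
      lv (RingHom.id k) 1 J₀ (idd k) (s + 2) g := rfl

theorem continuous_lvO (h : OF J₀) (s : ℕ) : Continuous (lvO h s) :=
  Continuous.subtype_mk (continuous_lv (idc k) (idd k)) _

/-- the torus of wall 1 commutes with the lower block -/
theorem comm_lbO (h : OF J₀) (s : ℕ) {a : k} (ha : a ≠ 0) (z : ℤ)
    (g : EUF (RingHom.id k) 1 (hyp (s + 2) 1 J₀)) :
    Commute (tO h (s + 1) ha (Pi.single 0 z)) (lbO h s g) :=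
  Subtype.ext (comm_w1 (s + 2) (pow_ne_zero 2 ha) rfl z g.1)

/-- the torus of wall `r` commutes with the Levi block -/
theorem comm_lvO (h : OF J₀) (s : ℕ) {a : k} (ha : a ≠ 0) (z : ℤ)
    (g : SpecialLinearGroup (Fin (s + 2)) k) :
    Commute (tO h s ha fun _ => z) (lvO h s g) :=
  Subtype.ext (comm_wr (idd k) (s + 2) (pow_ne_zero 2 ha) rfl z g)

end mem

/-! ### Wall 1, `r ≥ 3` -/

section wall1

variable {ι : Type} [Fintype ι] [DecidableEq ι] {k : Type} [NontriviallyNormedField k]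
  {J₀ : Matrix ι ι k} {q : ℕ}
  {E : Type} [Group E] [TopologicalSpace E] [IsTopologicalGroup E]
  [LocallyCompactSpace E] [SecondCountableTopology E] [MeasurableSpace E] [BorelSpace E]

/-- the compact sets of the tail of wall 1 -/
def KO (J₀ : Matrix ι ι k) (q : ℕ) (j : Fin (q + 2)) :
    Set (EUF (RingHom.id k) 1 (hyp (q + 2) 1 J₀)) :=
  Subtype.val ⁻¹' (fRow q J₀ (σ := RingHom.id k) (ε := 1) (idc k) (idd k) (mul_one 1)
    (id1 k) j).K

theorem one_lt_sq {a : k} (h : 1 < ‖a‖) : 1 < ‖a ^ 2‖ := by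
  rw [norm_pow]
  exact one_lt_pow₀ h two_ne_zero

theorem sq_lt_one {a : k} (h : ‖a‖ < 1) : ‖a ^ 2‖ < 1 := by
  rw [norm_pow]
  exact pow_lt_one₀ (norm_nonneg _) h two_ne_zero

theorem inv_gt {a : k} (ha : a ≠ 0) (h : ‖a‖ < 1) : 1 < ‖a⁻¹‖ := by
  rw [norm_inv]
  exact (one_lt_inv₀ (norm_pos_iff.2 ha)).2 h

/-- ping-pong of the torus of wall 1 -/
theorem pps_w1O [ProperSpace k] (h : OF J₀)
    {i₁ : EUF (RingHom.id k) 1 (hyp (q + 2) 1 J₀) →* E} (hι : Continuous i₁)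
    (hp : ∀ C : Set E, IsCompact C → ∃ C' : Set (EUF (RingHom.id k) 1 (hyp (q + 2) 1 J₀)),
      IsCompact C' ∧ i₁ ⁻¹' C ⊆ C') {a : k} (ha : a ≠ 0) (ha1 : ‖a‖ < 1) {z : ℤ}
    (hz : z = 1 ∨ z = -1) :
    ∃ K₀, PPs (fun N => i₁ (tO h q ha (Pi.single 0 z)) ^ N) K₀ := by
  have hw1 : ‖a ^ 2‖ < 1 := sq_lt_one ha1
  have h0 : (0 : Fin (q + 2)) = ⟨0, by omega⟩ := rfl
  -- rows `e_0` and another row where the torus is `1`
  obtain ⟨i, j, R, hRK, hi, hj⟩ : ∃ (i j : Idx (q + 2) ι)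
      (R : RowN (FormGroup (RingHom.id k) (hyp (q + 2) 1 J₀)) i j),
      R.K ⊆ EUF (RingHom.id k) 1 (hyp (q + 2) 1 J₀) ∧
      (∀ w : k, dgF (q + 2) ι w (Pi.single 0 (-1)) i = w⁻¹) ∧
      (∀ w : k, dgF (q + 2) ι w (Pi.single 0 (-1)) j = 1) := by
    refine ⟨_, _, fRow q J₀ (σ := RingHom.id k) (ε := 1) continuous_id (fun _ => rfl) (mul_one 1)
      rfl ⟨0, by omega⟩, fRow_K h q (idc k) (idd k) (mul_one 1) (id1 k) _, fun w => ?_, fun w => ?_⟩
    · have e : ra q ι ⟨0, by omega⟩ = (Sum.inl (Sum.inl 0) : Idx (q + 2) ι) := by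
        unfold ra
        rw [if_neg (by simp)]
        rfl
      rw [e]
      simp [dgF]
    · have e : rb q ι ⟨0, by omega⟩ = (Sum.inl (Sum.inl 1) : Idx (q + 2) ι) := by
        unfold rb
        rw [dif_neg (by simp)]
        rfl
      have h1 : (1 : Fin (q + 2)) ≠ 0 := Fin.succ_ne_zero (n := q + 1) 0
      rw [e]
      simp only [dgF, Sum.elim_inl, Pi.single_eq_of_ne h1, zpow_zero]
  obtain ⟨D₀, hD₀, hDK⟩ : ∃ D : DirG (FormGroup (RingHom.id k) (hyp (q + 2) 1 J₀)),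
      D.g = (tO h q ha (Pi.single 0 (-1))).1 ∧
      D.R.K ⊆ EUF (RingHom.id k) 1 (hyp (q + 2) 1 J₀) :=
    ⟨{ i := i
       j := j
       R := R
       g := (tO h q ha (Pi.single 0 (-1))).1
       d := dgF (q + 2) ι (a ^ 2) (Pi.single 0 (-1))
       hg := rfl
       lt := by
         rw [hi, hj, norm_one, norm_inv]
         exact (one_lt_inv₀ (norm_pos_iff.2 (pow_ne_zero 2 ha))).2 hw1 }, rfl, hRK⟩
  rcases hz with rfl | rfl
  · have hg : D₀.inv.g = (tO h q ha (Pi.single 0 1)).1 := by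
      change (D₀.g)⁻¹ = _
      rw [hD₀]
      have := congrArg Subtype.val (tO_inv h q ha (Pi.single 0 (-1)))
      rw [← Pi.single_neg, neg_neg] at this
      exact this
    have hK : D₀.inv.R.K ⊆ EUF (RingHom.id k) 1 (hyp (q + 2) 1 J₀) := by
      intro x hx
      rcases hx with hx | hx
      · exact hDK (Or.inr hx)
      · exact hDK (Or.inl hx)
    have hm : D₀.inv.g ∈ EUF (RingHom.id k) 1 (hyp (q + 2) 1 J₀) := by
      rw [hg]
      exact (tO h q ha (Pi.single 0 1)).2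
    have h1 := ppsDO D₀.inv hm hK hι hp
    have e : (⟨D₀.inv.g, hm⟩ : EUF (RingHom.id k) 1 (hyp (q + 2) 1 J₀)) =
        tO h q ha (Pi.single 0 1) := Subtype.ext hg
    rw [e] at h1
    exact ⟨_, h1⟩
  · have hm : D₀.g ∈ EUF (RingHom.id k) 1 (hyp (q + 2) 1 J₀) := by
      rw [hD₀]
      exact (tO h q ha (Pi.single 0 (-1))).2
    have h1 := ppsDO D₀ hm hDK hι hp
    have e : (⟨D₀.g, hm⟩ : EUF (RingHom.id k) 1 (hyp (q + 2) 1 J₀)) =
        tO h q ha (Pi.single 0 (-1)) := Subtype.ext hD₀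
    rw [e] at h1
    exact ⟨_, h1⟩

/-- **Wall 1, `r = q + 3`**: `z = 1` or `z = -1`. -/
theorem chain_w1O [ProperSpace k] (h : OF J₀)
    {i₁ : EUF (RingHom.id k) 1 (hyp (q + 3) 1 J₀) →* E} (hι : Continuous i₁)
    (hp : ∀ C : Set E, IsCompact C → ∃ C' : Set (EUF (RingHom.id k) 1 (hyp (q + 3) 1 J₀)),
      IsCompact C' ∧ i₁ ⁻¹' C ⊆ C') {a : k} (ha : a ≠ 0) (ha1 : ‖a‖ < 1) {z : ℤ}
    (hz : z = 1 ∨ z = -1) :
    ∃ (b : Fin (q + 3) → ℕ → E) (𝒦 : Fin (q + 3) → Set E),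
      GChain (fun K : Set E => IsCompact K) (PingT E) (q + 3) b 𝒦 ∧
      (∀ M, b 0 M = i₁ (tO h (q + 1) ha (Pi.single 0 z)) ^ M) ∧
      (∀ j M, (i₁.comp (lbO h q)) (tO h q (inv_ne_zero ha) (lam q j) ^ M) = b j.succ M) ∧
      ∀ j, (i₁.comp (lbO h q)) '' (KO J₀ q j) = 𝒦 j.succ := by
  obtain ⟨K₀, h₀⟩ := pps_w1O (q := q + 1) h hι hp ha ha1 hz
  have hw1' : 1 < ‖(a⁻¹) ^ 2‖ := one_lt_sq (inv_gt ha ha1)
  refine gchain_consO hι hp h₀ (comm_lbO h q ha z)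
    (fun j : Fin (q + 2) => fDir (q + 1) J₀ (σ := RingHom.id k) (ε := 1) (idc k)
      (idd k) (mul_one 1) (id1 k) hw1' (pow_ne_zero 2 (inv_ne_zero ha)) rfl j.succ)
    (fun j => (tO h (q + 1) (inv_ne_zero ha) (lam (q + 1) j.succ)).2)
    (fun j => fRow_K h (q + 1) (idc k) (idd k) (mul_one 1) (id1 k) _)
    (fun j => ?_) (fun j => ?_) (fun i j _ => tO_comm h q _ _ (lam q i) (lam q j))
    (fun i j hij x hx => ?_)
  · rw [lbO_coe]
    change lb (RingHom.id k) 1 J₀ (q + 2)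
      (tF (RingHom.id k) 1 J₀ (q + 2) (pow_ne_zero 2 (inv_ne_zero ha)) rfl (lam q j)) = _
    rw [lb_tF, lam_cons]
    rfl
  · have hK := lb_K (J₀ := J₀) (σ := RingHom.id k) (ε := 1) q (idc k) (idd k)
      (mul_one 1) (id1 k) j
    ext y
    constructor
    · rintro ⟨x, hx, rfl⟩
      change (lbO h q x).1 ∈ (fRow (q + 1) J₀ (σ := RingHom.id k) (ε := 1) (idc k)
        (idd k) (mul_one 1) (id1 k) j.succ).K
      rw [← hK]
      exact ⟨x.1, hx, rfl⟩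
    · intro hy
      have hy' : y.1 ∈ (fRow (q + 1) J₀ (σ := RingHom.id k) (ε := 1) (idc k)
        (idd k) (mul_one 1) (id1 k) j.succ).K := hy
      rw [← hK] at hy'
      obtain ⟨x, hx, hxy⟩ := hy'
      exact ⟨⟨x, fRow_K h q (idc k) (idd k) (mul_one 1) (id1 k) _ hx⟩, hx, Subtype.ext hxy⟩
  · apply Subtype.ext
    exact tF_up q (idc k) (idd k) (mul_one 1) (id1 k) (pow_ne_zero 2 (inv_ne_zero ha)) rfl
      hij hx

end wall1

/-! ### Wall `r` -/

section wallr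

variable {ι : Type} [Fintype ι] [DecidableEq ι] {k : Type} [NontriviallyNormedField k]
  {J₀ : Matrix ι ι k} {q : ℕ}
  {E : Type} [Group E] [TopologicalSpace E] [IsTopologicalGroup E]
  [LocallyCompactSpace E] [SecondCountableTopology E] [MeasurableSpace E] [BorelSpace E]
  {i₁ : EUF (RingHom.id k) 1 (hyp (q + 2) 1 J₀) →* E}

/-- ping-pong of the torus of wall `r` -/
theorem pps_wrO [ProperSpace k] (h : OF J₀) (hι : Continuous i₁)
    (hp : ∀ C : Set E, IsCompact C → ∃ C' : Set (EUF (RingHom.id k) 1 (hyp (q + 2) 1 J₀)),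
      IsCompact C' ∧ i₁ ⁻¹' C ⊆ C') {a : k} (ha : a ≠ 0) (ha1 : ‖a‖ < 1) {z : ℤ}
    (hz : z = 1 ∨ z = -1) :
    ∃ K₀, PPs (fun N => i₁ (tO h q ha fun _ => z) ^ N) K₀ := by
  have hw1 : ‖a ^ 2‖ < 1 := sq_lt_one ha1
  have hq1 : q + 1 < q + 2 := by omega
  have h0 : ra q ι ⟨q + 1, hq1⟩ = (Sum.inl (Sum.inl ⟨q, by omega⟩) : Idx (q + 2) ι) := by
    unfold ra
    rw [if_pos rfl]
  have h0' : rb q ι ⟨q + 1, hq1⟩ = (Sum.inl (Sum.inr ⟨q + 1, by omega⟩) : Idx (q + 2) ι) := by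
    unfold rb
    rw [dif_pos rfl]
  obtain ⟨D₀, hD₀, hDK⟩ : ∃ D : DirG (FormGroup (RingHom.id k) (hyp (q + 2) 1 J₀)),
      D.g = (tO h q ha fun _ => -1).1 ∧
      D.R.K ⊆ EUF (RingHom.id k) 1 (hyp (q + 2) 1 J₀) :=
    ⟨{ i := _
       j := _
       R := fRow q J₀ (σ := RingHom.id k) (ε := 1) (idc k) (idd k) (mul_one 1) (id1 k)
         ⟨q + 1, hq1⟩
       g := (tO h q ha fun _ => -1).1
       d := dgF (q + 2) ι (a ^ 2) fun _ => -1
       hg := rfl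
       lt := by
         rw [h0, h0']
         simp only [dgF, Sum.elim_inl, Sum.elim_inr, neg_neg, zpow_one, _root_.zpow_neg_one,
           norm_inv]
         exact hw1.trans ((one_lt_inv₀ (norm_pos_iff.2 (pow_ne_zero 2 ha))).2 hw1) }, rfl,
      fRow_K h q (idc k) (idd k) (mul_one 1) (id1 k) _⟩
  rcases hz with rfl | rfl
  · have hg : D₀.inv.g = (tO h q ha fun _ => 1).1 := by
      change (D₀.g)⁻¹ = _
      rw [hD₀]
      have := congrArg Subtype.val (tO_inv h q ha fun _ => -1)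
      exact this
    have hK : D₀.inv.R.K ⊆ EUF (RingHom.id k) 1 (hyp (q + 2) 1 J₀) := by
      intro x hx
      rcases hx with hx | hx
      · exact hDK (Or.inr hx)
      · exact hDK (Or.inl hx)
    have hm : D₀.inv.g ∈ EUF (RingHom.id k) 1 (hyp (q + 2) 1 J₀) := by
      rw [hg]
      exact (tO h q ha fun _ => 1).2
    have h1 := ppsDO D₀.inv hm hK hι hp
    have e : (⟨D₀.inv.g, hm⟩ : EUF (RingHom.id k) 1 (hyp (q + 2) 1 J₀)) =
        tO h q ha fun _ => 1 := Subtype.ext hg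
    rw [e] at h1
    exact ⟨_, h1⟩
  · have hm : D₀.g ∈ EUF (RingHom.id k) 1 (hyp (q + 2) 1 J₀) := by
      rw [hD₀]
      exact (tO h q ha fun _ => -1).2
    have h1 := ppsDO D₀ hm hDK hι hp
    have e : (⟨D₀.g, hm⟩ : EUF (RingHom.id k) 1 (hyp (q + 2) 1 J₀)) =
        tO h q ha fun _ => -1 := Subtype.ext hD₀
    rw [e] at h1
    exact ⟨_, h1⟩

/-- **Wall `r = q + 2`**: `z = 1` or `z = -1`; `w : kˣ` is any element with `‖w‖ < 1`. -/
theorem chain_wrO [ProperSpace k] (h : OF J₀) (hι : Continuous i₁)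
    (hp : ∀ C : Set E, IsCompact C → ∃ C' : Set (EUF (RingHom.id k) 1 (hyp (q + 2) 1 J₀)),
      IsCompact C' ∧ i₁ ⁻¹' C ⊆ C') {a : k} (ha : a ≠ 0) (ha1 : ‖a‖ < 1) (w : kˣ)
    (hw1 : ‖(w : k)‖ < 1) {z : ℤ} (hz : z = 1 ∨ z = -1) :
    ∃ (b : Fin (q + 2) → ℕ → E) (𝒦 : Fin (q + 2) → Set E),
      GChain (fun K : Set E => IsCompact K) (PingT E) (q + 2) b 𝒦 ∧
      (∀ M, b 0 M = i₁ (tO h q ha fun _ => z) ^ M) ∧
      (∀ j M, (i₁.comp (lvO h q)) (bS w j M) = b j.succ M) ∧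
      ∀ j, (i₁.comp (lvO h q)) '' (KS k (m := q + 1) j) = 𝒦 j.succ := by
  obtain ⟨K₀, h₀⟩ := pps_wrO (q := q) h hι hp ha ha1 hz
  have hw1' : 1 < ‖((w⁻¹ : kˣ) : k)‖ := by
    rw [Units.val_inv_eq_inv_val, norm_inv]
    exact (one_lt_inv₀ (norm_pos_iff.2 w.ne_zero)).2 hw1
  have hlK : ∀ j : Fin (q + 1), (lRow (ε := (1 : k)) (J₀ := J₀) (σ := RingHom.id k) (idc k)
      (idd k) (Fin.castSucc_lt_succ (i := j)).ne).K ⊆
      EUF (RingHom.id k) 1 (hyp (q + 2) 1 J₀) := by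
    intro j x hx
    rw [← lv_K] at hx
    obtain ⟨y, -, rfl⟩ := hx
    exact lv_mem_EU h q (idd k) y
  refine gchain_consO (gS := fun j => (tor (q + 1) (w⁻¹).ne_zero j.castSucc : GG k (q + 1)))
    (KS := fun j => KS k (m := q + 1) j) hι hp h₀ (comm_lvO h q ha z)
    (fun j : Fin (q + 1) => lDir (σ := RingHom.id k) 1 J₀ (idc k) (idd k) hw1'
      (w⁻¹).ne_zero j)
    (fun j => lv_mem_EU h q (idd k) _) hlK (fun j => rfl) (fun j => ?_)
    (fun i j _ => tor_comm (q + 1) (w⁻¹).ne_zero i.castSucc j.castSucc)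
    (fun i j hij x hx => tor_commKS w hij hx)
  have hK := lv_K (ε := (1 : k)) (J₀ := J₀) (σ := RingHom.id k) (idc k) (idd k)
    (Fin.castSucc_lt_succ (i := j)).ne
  ext y
  constructor
  · rintro ⟨x, hx, rfl⟩
    change (lvO h q x).1 ∈ (lRow (ε := (1 : k)) (J₀ := J₀) (σ := RingHom.id k) (idc k)
      (idd k) (Fin.castSucc_lt_succ (i := j)).ne).K
    rw [← hK]
    exact ⟨x, hx, rfl⟩
  · intro hy
    have hy' : y.1 ∈ (lRow (ε := (1 : k)) (J₀ := J₀) (σ := RingHom.id k) (idc k)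
      (idd k) (Fin.castSucc_lt_succ (i := j)).ne).K := hy
    rw [← hK] at hy'
    obtain ⟨x, hx, hxy⟩ := hy'
    exact ⟨x, hx, Subtype.ext hxy⟩

end wallr

end Vale.Agent.P092.H534.Or
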