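import Vale.Agent.P092.H534.Or.Prop
import Vale.Agent.P092.H411.S2.Tor

/-!
P092 (helper534), stage CL-O, [CLO-NRM]: the lower block maps Eichler elements to Eichler elements
(every form `hyp p ε J₀`).
-/

set_option linter.all false

open Matrix Set Topology Filter

namespace Vale.Agent.P092.H534.Or

open Vale.Agent.P092.H303
open Vale.Agent.P092.H411 Vale.Agent.P092.H411.S2
open Vale.Agent.P092.H714.Cl (hf toSL_val)
open Vale.Agent.P092.H370.Fo (EU EP ei eim ei_mem_EU EU_le vecMul_ei)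

section alg

variable {ι : Type} [Fintype ι] [DecidableEq ι] {k : Type} [NontriviallyNormedField k] {p : ℕ}
  {σ : k →+* k} {ε : k} {J₀ : Matrix ι ι k}

/-- the extension by zero -/
def xt (u : Idx p ι → k) : Idx (p + 1) ι → k := fun x => Sum.elim u 0 (spl x)

theorem xt_inl (u : Idx p ι → k) (x : Idx p ι) : xt u (spl.symm (Sum.inl x)) = u x := by
  rw [xt, Equiv.apply_symm_apply]
  rfl

theorem xt_inr (u : Idx p ι → k) (x : Unit ⊕ Unit) : xt u (spl.symm (Sum.inr x)) = 0 := by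
  rw [xt, Equiv.apply_symm_apply]
  rfl

theorem xt_dot (u v : Idx p ι → k) : xt u ⬝ᵥ xt v = u ⬝ᵥ v := by
  rw [dotProduct, ← spl.symm.sum_comp, Fintype.sum_sum_type]
  simp only [xt_inl, xt_inr, mul_zero, Finset.sum_const_zero, add_zero]
  rfl

theorem map_xt (σ : k →+* k) (u : Idx p ι → k) :
    (fun i => σ (xt u i)) = xt fun i => σ (u i) := by
  funext i
  obtain ⟨i, rfl⟩ := spl.symm.surjective i
  rcases i with i | i
  · rw [xt_inl, xt_inl]
  · rw [xt_inr, xt_inr, map_zero]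

theorem hyp_xt (ε : k) (J₀ : Matrix ι ι k) (u : Idx p ι → k) :
    hyp (p + 1) ε J₀ *ᵥ xt u = xt (hyp p ε J₀ *ᵥ u) := by
  rw [hyp_eq, submatrix_mulVec_equiv]
  have e : xt u ∘ spl.symm = Sum.elim u 0 := by
    funext x
    rcases x with x | x
    · exact xt_inl u x
    · exact xt_inr u x
  rw [e, fromBlocks_mulVec]
  funext i
  obtain ⟨i, rfl⟩ := spl.symm.surjective i
  rw [Function.comp_apply, Equiv.apply_symm_apply]
  rcases i with i | i
  · rw [xt_inl]
    simp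
  · rw [xt_inr]
    simp

theorem hf_xt (u v : Idx p ι → k) :
    hf σ (hyp (p + 1) ε J₀) (xt u) (xt v) = hf σ (hyp p ε J₀) u v := by
  unfold hf
  rw [map_xt, hyp_xt, xt_dot]

theorem xt_add (u v : Idx p ι → k) : xt (u + v) = xt u + xt v := by
  funext i
  obtain ⟨i, rfl⟩ := spl.symm.surjective i
  rcases i with i | i
  · rw [Pi.add_apply, xt_inl, xt_inl, xt_inl, Pi.add_apply]
  · rw [Pi.add_apply, xt_inr, xt_inr, xt_inr, add_zero]

theorem xt_smul (c : k) (u : Idx p ι → k) : xt (c • u) = c • xt u := by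
  funext i
  obtain ⟨i, rfl⟩ := spl.symm.surjective i
  rcases i with i | i
  · rw [Pi.smul_apply, xt_inl, xt_inl, Pi.smul_apply]
  · rw [Pi.smul_apply, xt_inr, xt_inr, smul_zero]

theorem lbm_vv (x y : Idx p ι → k) (A : Matrix (Idx p ι) (Idx p ι) k) :
    lbm (A + vecMulVec x y) = lbm A + vecMulVec (xt x) (xt y) := by
  ext i j
  obtain ⟨i, rfl⟩ := spl.symm.surjective i
  obtain ⟨j, rfl⟩ := spl.symm.surjective j
  rw [Matrix.add_apply, vecMulVec_apply, lbm, lbm, submatrix_apply, submatrix_apply,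
    Equiv.apply_symm_apply, Equiv.apply_symm_apply]
  rcases i with i | i <;> rcases j with j | j
  · rw [xt_inl, xt_inl, fromBlocks_apply₁₁, fromBlocks_apply₁₁, Matrix.add_apply, vecMulVec_apply]
  · rw [xt_inl, xt_inr, fromBlocks_apply₁₂, fromBlocks_apply₁₂, mul_zero, add_zero]
  · rw [xt_inr, xt_inl, fromBlocks_apply₂₁, fromBlocks_apply₂₁, zero_mul, add_zero]
  · rw [xt_inr, xt_inr, fromBlocks_apply₂₂, fromBlocks_apply₂₂, zero_mul, add_zero]

theorem lbm_eim (u v : Idx p ι → k) (c : k) :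
    lbm (eim σ ε (hyp p ε J₀) u v c) = eim σ ε (hyp (p + 1) ε J₀) (xt u) (xt v) c := by
  unfold eim
  rw [← add_assoc, ← add_assoc, lbm_vv, lbm_vv, lbm_one, ← hyp_xt, ← hyp_xt, xt_add, xt_smul,
    xt_smul, map_xt, map_xt]

/-- the lower block of `SL` -/
def lbS (ι : Type) [Fintype ι] [DecidableEq ι] (k : Type) [NontriviallyNormedField k] (p : ℕ) :
    SpecialLinearGroup (Idx p ι) k →* SpecialLinearGroup (Idx (p + 1) ι) k where
  toFun g := ⟨lbm g.1, by rw [det_lbm]; exact g.2⟩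
  map_one' := Subtype.ext lbm_one
  map_mul' g h := Subtype.ext (lbm_mul g.1 h.1)

theorem xt_EP {u v : Idx p ι → k} {c : k} (h : EP σ ε (hyp p ε J₀) u v c) :
    EP σ ε (hyp (p + 1) ε J₀) (xt u) (xt v) c :=
  ⟨by rw [hf_xt]; exact h.uu, by rw [hf_xt]; exact h.vu, by rw [hf_xt]; exact h.vv⟩

theorem lbS_ei (hF : H714.Sg.Fm σ ε (hyp p ε J₀)) {u v : Idx p ι → k} {c : k}
    (h : EP σ ε (hyp p ε J₀) u v c) :
    lbS ι k p (ei σ ε (hyp p ε J₀) u v c) = ei σ ε (hyp (p + 1) ε J₀) (xt u) (xt v) c := by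
  apply Subtype.ext
  have huv : hf σ (hyp p ε J₀) u v = 0 := hF.symm0 h.vu
  unfold ei
  rw [dif_pos ⟨h.uu, huv, h.vu⟩, dif_pos ⟨by rw [hf_xt]; exact h.uu, by rw [hf_xt]; exact huv,
    by rw [hf_xt]; exact h.vu⟩, toSL_val]
  exact lbm_eim u v c

/-- **The lower block maps `EU` to `EU`.** -/
theorem lb_mem_EU (hF : H714.Sg.Fm σ ε (hyp p ε J₀)) {g : SpecialLinearGroup (Idx p ι) k}
    (hg : g ∈ EU σ ε (hyp p ε J₀)) : lbS ι k p g ∈ EU σ ε (hyp (p + 1) ε J₀) := by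
  have h1 : EU σ ε (hyp p ε J₀) ≤ (EU σ ε (hyp (p + 1) ε J₀)).comap (lbS ι k p) := by
    conv_lhs => rw [EU]
    rw [Subgroup.closure_le]
    rintro _ ⟨u, v, c, h, rfl⟩
    change lbS ι k p (ei σ ε (hyp p ε J₀) u v c) ∈ EU σ ε (hyp (p + 1) ε J₀)
    rw [lbS_ei hF h]
    exact ei_mem_EU (xt_EP h)
  exact h1 hg

end alg

end Vale.Agent.P092.H534.Or
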