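import Vale.Agent.P092.H534.Or.Sym

/-!
P092 (helper534), stage CL-O, [CLO-NRM]: `Ps : SL₂(k) → O(J)` is continuous and proper; ping-pong
sequences from `Ps` in every group `E` with a proper homomorphism from a subgroup `H` between the
group `EU` of the Eichler elements and the isometry group.
-/

set_option linter.all false

open Matrix Set Topology Filter

namespace Vale.Agent.P092.H534.Or

open Vale.Agent.P092.H534.Ch
open Vale.Agent.P092.H411 Vale.Agent.P092.H411.S2
open Vale.Agent.P092.H303 (FormGroup isClosedEmbedding_val)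
open Vale.Agent.P092.H714.Sg (Fm)
open Vale.Agent.P092.H370.Fo (EU)

section top

variable {n : Type} [Fintype n] [DecidableEq n] {k : Type} [NontriviallyNormedField k]
  {J : Matrix n n k} {u w c : n → k} {η : k}

theorem continuous_M3 : Continuous (M3 : Matrix (Fin 2) (Fin 2) k → Matrix (Fin 3) (Fin 3) k) := by
  have h : ∀ i j : Fin 2, Continuous fun g : Matrix (Fin 2) (Fin 2) k => g i j :=
    fun i j => continuous_id.matrix_elem i j
  have h00 := h 0 0
  have h01 := h 0 1
  have h10 := h 1 0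
  have h11 := h 1 1
  refine continuous_matrix fun i j => ?_
  fin_cases i <;> fin_cases j <;> simp only [M3, of_apply, Fin.zero_eta, Fin.mk_one,
    Fin.reduceFinMk, Matrix.cons_val_zero, Matrix.cons_val_one, Matrix.cons_val] <;> fun_prop

theorem continuous_ph (J : Matrix n n k) (u w c : n → k) (η : k) :
    Continuous (ph J u w c η) := by
  unfold ph
  exact continuous_const.add (((continuous_const.matrix_mul (continuous_M3.sub
    continuous_const))).matrix_mul continuous_const)

theorem continuous_Ps (h : T3 J u w c η) : Continuous (Ps h) := by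
  refine Continuous.subtype_mk (Continuous.subtype_mk ?_ _) _
  exact (continuous_ph J u w c η).comp continuous_subtype_val

theorem cpt_SL2 [ProperSpace k] (R : ℝ) :
    IsCompact {g : SpecialLinearGroup (Fin 2) k | ∀ i j, ‖g.1 i j‖ ≤ R} := by
  have hK : IsCompact {M : Matrix (Fin 2) (Fin 2) k | ∀ i j, ‖M i j‖ ≤ R} := by
    have e1 : {M : Matrix (Fin 2) (Fin 2) k | ∀ i j, ‖M i j‖ ≤ R} =
        (Set.univ.pi fun _ : Fin 2 => Set.univ.pi fun _ : Fin 2 => Metric.closedBall (0 : k) R) := by
      ext M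
      constructor
      · intro h i _ j _
        exact mem_closedBall_zero_iff.2 (h i j)
      · intro h i j
        exact mem_closedBall_zero_iff.1 (h i (Set.mem_univ i) j (Set.mem_univ j))
    rw [e1]
    exact isCompact_univ_pi fun _ => isCompact_univ_pi fun _ => isCompact_closedBall _ _
  exact (isClosedEmbedding_val (n := Fin 2) (k := k)).isCompact_preimage hK

/-- **`Ps` is proper.** -/
theorem proper_Ps [ProperSpace k] (h : T3 J u w c η) (C : Set (FormGroup (RingHom.id k) J))
    (hC : IsCompact C) :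
    ∃ C' : Set (SpecialLinearGroup (Fin 2) k), IsCompact C' ∧ (Ps h) ⁻¹' C ⊆ C' := by
  have hcont : Continuous fun x : FormGroup (RingHom.id k) J => fun p : Fin 3 × Fin 3 =>
      (I3 u w c * x.1.1 * P3 J u w c η) p.1 p.2 := by
    have h1 : Continuous fun x : FormGroup (RingHom.id k) J => x.1.1 :=
      continuous_subtype_val.comp continuous_subtype_val
    have h2 : Continuous fun x : FormGroup (RingHom.id k) J =>
        I3 u w c * x.1.1 * P3 J u w c η :=
      (continuous_const.matrix_mul h1).matrix_mul continuous_const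
    exact continuous_pi fun p => h2.matrix_elem p.1 p.2
  obtain ⟨R, hR⟩ := hC.exists_bound_of_continuousOn hcont.continuousOn
  refine ⟨_, cpt_SL2 (k := k) (max |R| 1), fun g hg => ?_⟩
  have hb : ∀ a b : Fin 3, ‖M3 g.1 a b‖ ≤ |R| := by
    intro a b
    have h1 := hR _ hg
    have h2 := (norm_le_pi_norm (fun p : Fin 3 × Fin 3 =>
      (I3 u w c * (Ps h g).1.1 * P3 J u w c η) p.1 p.2) (a, b)).trans h1
    simp only [Ps_coe, I3_ph_P3 h] at h2
    exact h2.trans (le_abs_self R)
  have key : ∀ x : k, ‖x ^ 2‖ ≤ |R| → ‖x‖ ≤ max |R| 1 := by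
    intro x hx
    rw [norm_pow] at hx
    by_contra hcon
    rw [not_le, max_lt_iff] at hcon
    nlinarith [hcon.1, hcon.2]
  intro i j
  fin_cases i <;> fin_cases j
  · exact key _ (by have := hb 0 0; simpa [M3] using this)
  · exact key _ (by have := hb 0 1; simpa [M3] using this)
  · exact key _ (by have := hb 1 0; simpa [M3] using this)
  · exact key _ (by have := hb 1 1; simpa [M3] using this)

/-- the homomorphism into a subgroup which contains `EU` -/
def PsH (h : T3 J u w c η) (hF : Fm (RingHom.id k) 1 J) {H : Subgroup (FormGroup (RingHom.id k) J)}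
    (hH : ∀ g : FormGroup (RingHom.id k) J, g.1 ∈ EU (RingHom.id k) 1 J → g ∈ H) :
    SpecialLinearGroup (Fin 2) k →* H :=
  (Ps h).codRestrict H fun g => hH _ (Ps_mem h hF g)

theorem PsH_coe (h : T3 J u w c η) (hF : Fm (RingHom.id k) 1 J)
    {H : Subgroup (FormGroup (RingHom.id k) J)}
    (hH : ∀ g : FormGroup (RingHom.id k) J, g.1 ∈ EU (RingHom.id k) 1 J → g ∈ H)
    (g : SpecialLinearGroup (Fin 2) k) : (PsH h hF hH g : FormGroup (RingHom.id k) J) = Ps h g :=
  rfl

theorem continuous_PsH (h : T3 J u w c η) (hF : Fm (RingHom.id k) 1 J)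
    {H : Subgroup (FormGroup (RingHom.id k) J)}
    (hH : ∀ g : FormGroup (RingHom.id k) J, g.1 ∈ EU (RingHom.id k) 1 J → g ∈ H) :
    Continuous (PsH h hF hH) := Continuous.subtype_mk (continuous_Ps h) _

theorem proper_PsH [ProperSpace k] (h : T3 J u w c η) (hF : Fm (RingHom.id k) 1 J)
    {H : Subgroup (FormGroup (RingHom.id k) J)}
    (hH : ∀ g : FormGroup (RingHom.id k) J, g.1 ∈ EU (RingHom.id k) 1 J → g ∈ H) (C : Set H)
    (hC : IsCompact C) :
    ∃ C' : Set (SpecialLinearGroup (Fin 2) k), IsCompact C' ∧ (PsH h hF hH) ⁻¹' C ⊆ C' := by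
  obtain ⟨C', h1, h2⟩ := proper_Ps h _ (hC.image continuous_subtype_val)
  exact ⟨C', h1, fun g hg => h2 ⟨_, hg, rfl⟩⟩

/-- the diagonal element `(a, a⁻¹)` of `SL₂` -/
def dg2 {a : k} (ha : a ≠ 0) : SpecialLinearGroup (Fin 2) k :=
  ⟨Matrix.diagonal ![a, a⁻¹], by rw [det_diagonal, Fin.prod_univ_two]; simp [ha]⟩

/-- the rows of `SL₂` -/
def row2 : RowN (⊤ : Subgroup (SpecialLinearGroup (Fin 2) k)) 0 1 where
  up t := ⟨⟨transvection 0 1 t, det_transvection_of_ne 0 1 (by decide) t⟩, Subgroup.mem_top _⟩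
  lo t := ⟨⟨transvection 1 0 t, det_transvection_of_ne 1 0 (by decide) t⟩, Subgroup.mem_top _⟩
  cu := by
    refine Continuous.subtype_mk (Continuous.subtype_mk ?_ _) _
    refine continuous_matrix fun i j => ?_
    fin_cases i <;> fin_cases j <;> simp [transvection, Matrix.single_apply] <;> fun_prop
  cl := by
    refine Continuous.subtype_mk (Continuous.subtype_mk ?_ _) _
    refine continuous_matrix fun i j => ?_
    fin_cases i <;> fin_cases j <;> simp [transvection, Matrix.single_apply] <;> fun_prop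
  u₁ t X := by
    funext e
    change ((transvection 0 1 t : Matrix (Fin 2) (Fin 2) k) * X) 0 e = _
    rw [transvection_mul_apply_same]
    rfl
  u₂ t X := by
    funext e
    change ((transvection 0 1 t : Matrix (Fin 2) (Fin 2) k) * X) 1 e = _
    rw [transvection_mul_apply_of_ne _ _ _ _ (by decide)]
  l₁ t X := by
    funext e
    change ((transvection 1 0 t : Matrix (Fin 2) (Fin 2) k) * X) 0 e = _
    rw [transvection_mul_apply_of_ne _ _ _ _ (by decide)]
  l₂ t X := by
    funext e
    change ((transvection 1 0 t : Matrix (Fin 2) (Fin 2) k) * X) 1 e = _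
    rw [transvection_mul_apply_same]
    rfl

/-- the direction of `SL₂` -/
def dir2 {a : k} (ha : a ≠ 0) (ha1 : 1 < ‖a‖) :
    DirG (⊤ : Subgroup (SpecialLinearGroup (Fin 2) k)) where
  i := 0
  j := 1
  R := row2
  g := ⟨dg2 ha, Subgroup.mem_top _⟩
  d := ![a, a⁻¹]
  hg := rfl
  lt := by
    simp only [Matrix.cons_val_zero, Matrix.cons_val_one, norm_inv]
    exact (inv_lt_one_of_one_lt₀ ha1).trans ha1

variable {E : Type} [Group E] [TopologicalSpace E] [IsTopologicalGroup E]
  [LocallyCompactSpace E] [SecondCountableTopology E] [MeasurableSpace E] [BorelSpace E]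

/-- **Ping-pong in `E` from `Ps`.** -/
theorem pps_Ps [ProperSpace k] (h : T3 J u w c η) (hF : Fm (RingHom.id k) 1 J)
    {H : Subgroup (FormGroup (RingHom.id k) J)}
    (hH : ∀ g : FormGroup (RingHom.id k) J, g.1 ∈ EU (RingHom.id k) 1 J → g ∈ H) {φ : H →* E}
    (hφ : Continuous φ)
    (hp : ∀ C : Set E, IsCompact C → ∃ C' : Set H, IsCompact C' ∧ φ ⁻¹' C ⊆ C')
    {a : k} (ha : a ≠ 0) (ha1 : 1 < ‖a‖) :
    ∃ K : Set (SpecialLinearGroup (Fin 2) k),
      PPs (fun N => φ (PsH h hF hH (dg2 ha)) ^ N) (φ '' (PsH h hF hH '' K)) := by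
  obtain ⟨Ψ, hΨ⟩ : ∃ Ψ : (⊤ : Subgroup (SpecialLinearGroup (Fin 2) k)) →* E,
      Ψ = φ.comp ((PsH h hF hH).comp (⊤ : Subgroup (SpecialLinearGroup (Fin 2) k)).subtype) :=
    ⟨_, rfl⟩
  have hc : Continuous Ψ := by
    rw [hΨ]
    exact hφ.comp ((continuous_PsH h hF hH).comp continuous_subtype_val)
  have hp' : ∀ C : Set E, IsCompact C → ∃ C' : Set (⊤ : Subgroup (SpecialLinearGroup (Fin 2) k)),
      IsCompact C' ∧ Ψ ⁻¹' C ⊆ C' := by
    rw [hΨ]
    refine proper_comp (proper_comp (fun C hC => ?_) (proper_PsH h hF hH)) hp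
    exact ⟨Subtype.val ⁻¹' C, cpt_sub hC fun x _ => Subgroup.mem_top x, fun x hx => hx⟩
  have h1 := ppsD (dir2 ha ha1) hc hp'
  refine ⟨Subtype.val '' (dir2 ha ha1).R.K, ?_⟩
  rw [Set.image_image, Set.image_image]
  rw [hΨ] at h1
  exact h1

end top

end Vale.Agent.P092.H534.Or
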