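import Vale.Agent.P092.H534.Ch.ChP

/-!
P092 (helper534), stage CL-O, [CLO-NRM]: ping-pong sequences and nested chains of a group `E` from
a SUBGROUP `H` of a matrix group `G ≤ SL_n(k)` which contains the root elements, and a proper
continuous homomorphism `φ : H →* E`.
-/

set_option linter.all false

open Matrix Set Topology Filter

namespace Vale.Agent.P092.H534.Or

open Vale.Agent.P092.H534.Ch
open Vale.Agent.P092.H411 Vale.Agent.P092.H411.S2
open Vale.Agent.P092.H701 (RowPair HChain)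
open Vale.Agent.P092.H761 (GChain)
open Vale.Agent.P092.H261 (PingT)

section sub

variable {G : Type*} [Group G] [TopologicalSpace G] {k : Type*} [NontriviallyNormedField k]
  {V : Type*} [NormedAddCommGroup V] [NormedSpace k V]

theorem cpt_sub {H : Subgroup G} {K : Set G} (hK : IsCompact K) (h : K ⊆ H) :
    IsCompact (Subtype.val ⁻¹' K : Set H) := by
  refine (Topology.IsInducing.subtypeVal.isCompact_preimage_iff ?_).2 hK
  rw [Subtype.range_coe]
  exact h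

/-- rows of a subgroup which contains the compact set -/
def subT (R : RowT G k V) (H : Subgroup G) (hK : R.K ⊆ H) : RowT H k V where
  ρ₁ x := R.ρ₁ x
  ρ₂ x := R.ρ₂ x
  ne x := R.ne x
  K := Subtype.val ⁻¹' R.K
  compact := cpt_sub R.compact hK
  rob S hS := by
    obtain ⟨C, hC⟩ := R.rob (Subtype.val '' S) (hS.image continuous_subtype_val)
    exact ⟨C, fun h s hs => hC h s ⟨s, hs, rfl⟩⟩
  pts p := by
    obtain ⟨t, t', η, u, l, h1, h2, h3, h4, h5, hu, hl, h6, h7, h8, h9⟩ := R.pts p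
    exact ⟨t, t', η, fun i => ⟨u i, hK (hu i)⟩, fun i => ⟨l i, hK (hl i)⟩, h1, h2, h3, h4, h5, hu,
      hl, fun i x => h6 i x, fun i x => h7 i x, fun i x => h8 i x, fun i x => h9 i x⟩

end sub

/-- Restriction of a proper homomorphism to the preimage of a subgroup. -/
theorem proper_comap {G F : Type*} [Group G] [TopologicalSpace G] [Group F] [TopologicalSpace F]
    [T2Space F] (Ψ : G →* F) (hΨ : Continuous Ψ)
    (hp : ∀ C : Set F, IsCompact C → ∃ C' : Set G, IsCompact C' ∧ Ψ ⁻¹' C ⊆ C') (S : Subgroup F)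
    (C : Set S) (hC : IsCompact C) :
    ∃ C' : Set (S.comap Ψ), IsCompact C' ∧ (Ψ.subgroupComap S) ⁻¹' C ⊆ C' := by
  have h1 := hC.image continuous_subtype_val
  obtain ⟨C', hC', h2⟩ := hp _ h1
  have h3 : IsCompact (Ψ ⁻¹' (Subtype.val '' C)) :=
    hC'.of_isClosed_subset (h1.isClosed.preimage hΨ) h2
  refine ⟨Subtype.val ⁻¹' (Ψ ⁻¹' (Subtype.val '' C)), cpt_sub h3 ?_, ?_⟩
  · rintro x ⟨y, hy, e⟩
    change Ψ x ∈ S
    rw [← e]
    exact y.2
  · intro x hx
    exact ⟨_, hx, rfl⟩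

/-- proper homomorphisms compose -/
theorem proper_comp {G F E : Type*} [Group G] [TopologicalSpace G] [Group F] [TopologicalSpace F]
    [Group E] [TopologicalSpace E] {Ψ : G →* F} {φ : F →* E}
    (hp : ∀ C : Set F, IsCompact C → ∃ C' : Set G, IsCompact C' ∧ Ψ ⁻¹' C ⊆ C')
    (hq : ∀ C : Set E, IsCompact C → ∃ C' : Set F, IsCompact C' ∧ φ ⁻¹' C ⊆ C')
    (C : Set E) (hC : IsCompact C) :
    ∃ C' : Set G, IsCompact C' ∧ (φ.comp Ψ) ⁻¹' C ⊆ C' := by
  obtain ⟨C₁, h1, h2⟩ := hq C hC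
  obtain ⟨C₂, h3, h4⟩ := hp C₁ h1
  exact ⟨C₂, h3, fun x hx => h4 (h2 hx)⟩

section dir

variable {k : Type} [NontriviallyNormedField k] {n : Type} [Fintype n] [DecidableEq n]
  {G : Subgroup (SpecialLinearGroup n k)} {H : Subgroup G}
  {E : Type} [Group E] [TopologicalSpace E] [IsTopologicalGroup E]
  [LocallyCompactSpace E] [SecondCountableTopology E] [MeasurableSpace E] [BorelSpace E]
  {φ : H →* E}

/-- ping-pong of one direction of a subgroup -/
theorem ppsDO [ProperSpace k] (D : DirG G) (hg : D.g ∈ H) (hK : D.R.K ⊆ H) (hφ : Continuous φ)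
    (hp : ∀ C : Set E, IsCompact C → ∃ C' : Set H, IsCompact C' ∧ φ ⁻¹' C ⊆ C') :
    PPs (fun N => φ ⟨D.g, hg⟩ ^ N) (φ '' (Subtype.val ⁻¹' D.R.K)) := by
  have hrob : ∀ S : Set G, IsCompact S → ∃ C : ℝ, ∀ h, ∀ s ∈ S,
      ‖(pairN D.R).ρ₁ (h * s)‖ ≤ C * ‖(pairN D.R).ρ₁ h‖ ∧
      ‖(pairN D.R).ρ₂ (h * s)‖ ≤ C * ‖(pairN D.R).ρ₂ h‖ := rob_row D.i D.j
  have hK' : (RowT.ofPair (pairN D.R) hrob).K ⊆ H := by
    change (pairN D.R).K ⊆ H
    rw [pairN_K]
    exact hK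
  have hr : ∀ (N : ℕ) (x : H) (i : n),
      ((⟨D.g, hg⟩ ^ N * x : H) : G).1.1 i = D.d i ^ N • (x : G).1.1 i := fun N x i => by
    have e : (D.g ^ N).1.1 = diagonal fun i => D.d i ^ N := by
      have := dg_pow D.hg N
      rwa [← Subgroup.coe_pow] at this
    have e2 : (((⟨D.g, hg⟩ : H) ^ N * x : H) : G) = D.g ^ N * (x : G) := by
      rw [Subgroup.coe_mul, Subgroup.coe_pow]
    rw [e2]
    exact SpK.dg_row e i (x : G).1
  have h := (subT (RowT.ofPair (pairN D.R) hrob) H hK').pps φ hφ hp (fun N => ⟨D.g, hg⟩ ^ N)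
    (fun N => D.d D.i ^ N) (fun N => D.d D.j ^ N) (fun N x => hr N x D.i)
    (fun N x => hr N x D.j)
    (fun N => pow_ne_zero _ (norm_pos_iff.1 ((norm_nonneg _).trans_lt D.lt))) (pow_lim D.lt)
  have e3 : (subT (RowT.ofPair (pairN D.R) hrob) H hK').K = Subtype.val ⁻¹' D.R.K := by
    change Subtype.val ⁻¹' (pairN D.R).K = _
    rw [pairN_K]
  rw [e3] at h
  simpa only [map_pow] using h

/-- **A nested chain of `E`**: first ping-pong sequence `φ g₀`, tail in `S` by `θ : S →* H`. -/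
theorem gchain_consO [ProperSpace k] (hφ : Continuous φ)
    (hp : ∀ C : Set E, IsCompact C → ∃ C' : Set H, IsCompact C' ∧ φ ⁻¹' C ⊆ C')
    {S : Type} [Group S] {θ : S →* H} {g₀ : H} {K₀ : Set E} (h₀ : PPs (fun N => φ g₀ ^ N) K₀)
    (h0 : ∀ s, Commute g₀ (θ s)) {m : ℕ}
    (T : Fin m → DirG G) (hT : ∀ j, (T j).g ∈ H) (hTK : ∀ j, (T j).R.K ⊆ H)
    {gS : Fin m → S} {KS : Fin m → Set S} (hg : ∀ j, ((θ (gS j) : H) : G) = (T j).g)
    (hK : ∀ j, θ '' KS j = Subtype.val ⁻¹' (T j).R.K) (hc : ∀ i j, i < j → Commute (gS i) (gS j))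
    (hcK : ∀ i j, i < j → ∀ x ∈ KS j, Commute (gS i) x) :
    ∃ (b : Fin (m + 1) → ℕ → E) (𝒦 : Fin (m + 1) → Set E),
      GChain (fun K : Set E => IsCompact K) (PingT E) (m + 1) b 𝒦 ∧
      (∀ M, b 0 M = φ g₀ ^ M) ∧ (∀ j M, (φ.comp θ) (gS j ^ M) = b j.succ M) ∧
      ∀ j, (φ.comp θ) '' KS j = 𝒦 j.succ := by
  have hg' : ∀ j, θ (gS j) = ⟨(T j).g, hT j⟩ := fun j => Subtype.ext (hg j)
  have hKi : ∀ j, (φ.comp θ) '' KS j = φ '' (Subtype.val ⁻¹' (T j).R.K) := fun j => by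
    rw [← hK, Set.image_image]
    rfl
  refine ⟨Fin.cons (fun M => φ g₀ ^ M) fun j M => (φ.comp θ) (gS j ^ M),
    Fin.cons K₀ fun j => (φ.comp θ) '' KS j, gchain_pps ?_ ?_ ?_, fun M => rfl, fun j M => rfl,
    fun j => rfl⟩
  · intro j
    refine Fin.cases h₀ (fun j => ?_) j
    rw [Fin.cons_succ, Fin.cons_succ, hKi]
    have h := ppsDO (T j) (hT j) (hTK j) hφ hp
    rw [← hg'] at h
    have e : (fun M => (φ.comp θ) (gS j ^ M)) = fun N => φ (θ (gS j)) ^ N := by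
      funext M
      rw [map_pow]
      rfl
    rw [e]
    exact h
  · intro i j hij N M
    obtain ⟨j', rfl⟩ : ∃ j', j = Fin.succ j' := Fin.exists_succ_eq.2 (Fin.pos_iff_ne_zero.1
      ((Fin.zero_le i).trans_lt hij)) |>.imp fun _ h => h.symm
    revert hij
    refine Fin.cases (fun _ => ?_) (fun i' hij => ?_) i
    · rw [Fin.cons_zero, Fin.cons_succ]
      exact (((h0 (gS j' ^ M)).map φ).pow_left N)
    · rw [Fin.cons_succ, Fin.cons_succ]
      exact (((hc i' j' (Fin.succ_lt_succ_iff.1 hij)).pow_pow N M).map (φ.comp θ))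
  · intro i j hij N x hx
    obtain ⟨j', rfl⟩ : ∃ j', j = Fin.succ j' := Fin.exists_succ_eq.2 (Fin.pos_iff_ne_zero.1
      ((Fin.zero_le i).trans_lt hij)) |>.imp fun _ h => h.symm
    rw [Fin.cons_succ] at hx
    obtain ⟨y, hy, rfl⟩ := hx
    revert hij
    refine Fin.cases (fun _ => ?_) (fun i' hij => ?_) i
    · rw [Fin.cons_zero]
      exact (((h0 y).map φ).pow_left N)
    · rw [Fin.cons_succ]
      exact (((hcK i' j' (Fin.succ_lt_succ_iff.1 hij) y hy).pow_left N).map (φ.comp θ))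

end dir

end Vale.Agent.P092.H534.Or
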