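import Vale.Agent.P092.H534.Or.Sub
import Vale.Agent.P092.H370.Fo1
import Vale.Agent.P092.H899.Simple

/-!
P092 (helper534), stage CL-O, [CLO-NRM]: the homomorphism `SL₂(k) → SO(3) → O(J)` given by two
isotropic vectors `u`, `w` and a vector `c` of a symmetric bilinear form: `h(u, w) = η`,
`h(c, c) = - 2 η`.  It is continuous, proper, and has values in the group `EU` of the Eichler elements.
-/

set_option linter.all false

open Matrix Set Topology Filter

namespace Vale.Agent.P092.H534.Or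

open Vale.Agent.P092.H303 (FormGroup)
open Vale.Agent.P092.H714.Cl (hf hf_add_left hf_smul_left hf_add_right hf_smul_right hf_zero_left
  hf_zero_right)
open Vale.Agent.P092.H714.Sg (Fm)
open Vale.Agent.P092.H370.Fo (EU EP ei ei_mem_EU EU_le vecMul_ei)

section sym

variable {k : Type} [Field k]

/-- the symmetric square, on `(α, β, γ) = [[α, γ], [γ, β]]`, acting from the right -/
def M3 (g : Matrix (Fin 2) (Fin 2) k) : Matrix (Fin 3) (Fin 3) k :=
  !![g 0 0 ^ 2, g 0 1 ^ 2, g 0 0 * g 0 1;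
     g 1 0 ^ 2, g 1 1 ^ 2, g 1 0 * g 1 1;
     2 * g 0 0 * g 1 0, 2 * g 0 1 * g 1 1, g 0 0 * g 1 1 + g 0 1 * g 1 0]

theorem M3_one : M3 (1 : Matrix (Fin 2) (Fin 2) k) = 1 := by
  ext i j
  fin_cases i <;> fin_cases j <;> simp [M3]

theorem M3_mul (g h : Matrix (Fin 2) (Fin 2) k) : M3 (g * h) = M3 g * M3 h := by
  ext i j
  fin_cases i <;> fin_cases j <;>
    simp [M3, Matrix.mul_apply, Fin.sum_univ_succ] <;> ring

theorem M3_det (g : Matrix (Fin 2) (Fin 2) k) : (M3 g).det = g.det ^ 3 := by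
  rw [det_fin_three, det_fin_two]
  simp [M3]
  ring

/-- the Gram matrix -/
def G3 (η : k) : Matrix (Fin 3) (Fin 3) k := !![0, η, 0; η, 0, 0; 0, 0, -2 * η]

theorem M3_form {g : Matrix (Fin 2) (Fin 2) k} (hg : g.det = 1) (η : k) :
    M3 g * G3 η * (M3 g)ᵀ = G3 η := by
  rw [det_fin_two] at hg
  have h1 : g 0 0 * g 1 1 = 1 + g 0 1 * g 1 0 := by linear_combination hg
  ext i j
  fin_cases i <;> fin_cases j <;>
    simp [M3, G3, Matrix.mul_apply, Fin.sum_univ_succ]
  · ring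
  · linear_combination (g 0 0 * g 1 1 - g 0 1 * g 1 0 + 1) * η * hg
  · linear_combination (0 : k) * hg
  · linear_combination (g 0 0 * g 1 1 - g 0 1 * g 1 0 + 1) * η * hg
  · ring
  · linear_combination (0 : k) * hg
  · linear_combination (0 : k) * hg
  · linear_combination (0 : k) * hg
  · linear_combination (-2) * (g 0 0 * g 1 1 - g 0 1 * g 1 0 + 1) * η * hg

end sym

section alg

variable {n : Type} [Fintype n] [DecidableEq n] {k : Type} [Field k] {J : Matrix n n k}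
  {u w c : n → k} {η : k}

/-- the conditions on the three vectors -/
structure T3 (J : Matrix n n k) (u w c : n → k) (η : k) : Prop where
  sym : Jᵀ = J
  two : (2 : k) ≠ 0
  ne : η ≠ 0
  uu : hf (RingHom.id k) J u u = 0
  ww : hf (RingHom.id k) J w w = 0
  uw : hf (RingHom.id k) J u w = η
  uc : hf (RingHom.id k) J u c = 0
  wc : hf (RingHom.id k) J w c = 0
  cc : hf (RingHom.id k) J c c = -2 * η

theorem hf_id (x y : n → k) : hf (RingHom.id k) J x y = x ⬝ᵥ (J *ᵥ y) := rfl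

theorem hf_sym (hJ : Jᵀ = J) (x y : n → k) :
    hf (RingHom.id k) J x y = hf (RingHom.id k) J y x := by
  rw [hf_id, hf_id, dotProduct_comm, ← vecMul_transpose, hJ, ← dotProduct_mulVec]

theorem T3.wu (h : T3 J u w c η) : hf (RingHom.id k) J w u = η := by rw [hf_sym h.sym, h.uw]

theorem T3.cu (h : T3 J u w c η) : hf (RingHom.id k) J c u = 0 := by rw [hf_sym h.sym, h.uc]

theorem T3.cw (h : T3 J u w c η) : hf (RingHom.id k) J c w = 0 := by rw [hf_sym h.sym, h.wc]

theorem T3.ne2 (h : T3 J u w c η) : -2 * η ≠ 0 := mul_ne_zero (neg_ne_zero.2 h.two) h.ne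

/-- the same with `u` and `w` exchanged -/
theorem T3.sw (h : T3 J u w c η) : T3 J w u c η :=
  ⟨h.sym, h.two, h.ne, h.ww, h.uu, h.wu, h.wc, h.uc, h.cc⟩

/-- the rows -/
def I3 (u w c : n → k) : Matrix (Fin 3) n k := of ![u, w, c]

/-- the dual columns -/
def P3 (J : Matrix n n k) (u w c : n → k) (η : k) : Matrix n (Fin 3) k :=
  (of ![η⁻¹ • (J *ᵥ w), η⁻¹ • (J *ᵥ u), (-2 * η)⁻¹ • (J *ᵥ c)])ᵀ

theorem I3_P3 (h : T3 J u w c η) : I3 u w c * P3 J u w c η = 1 := by
  have e : ∀ (x : n → k) (a : k) (y : n → k), ∑ j, x j * (a * (J *ᵥ y) j) =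
      a * hf (RingHom.id k) J x y := fun x a y => by
    rw [hf_id, dotProduct, Finset.mul_sum]
    exact Finset.sum_congr rfl fun j _ => by ring
  ext i j
  rw [Matrix.mul_apply]
  have h1 := h.ne
  have h2 := h.ne2
  have h3 := h.two
  fin_cases i <;> fin_cases j <;>
    simp only [I3, P3, transpose_apply, of_apply, Fin.zero_eta, Fin.mk_one, Fin.reduceFinMk,
      Matrix.cons_val_zero, Matrix.cons_val_one, Matrix.cons_val, Pi.smul_apply, smul_eq_mul, e,
      h.uu, h.ww, h.uw, h.wu, h.uc, h.wc, h.cu, h.cw, h.cc, mul_zero]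
  · rw [inv_mul_cancel₀ h1]; rfl
  · rfl
  · rfl
  · rfl
  · rw [inv_mul_cancel₀ h1]; rfl
  · rfl
  · rfl
  · rfl
  · rw [inv_mul_cancel₀ h2]; rfl

theorem G3_tr (η : k) : (G3 η)ᵀ = G3 η := by
  ext i j
  fin_cases i <;> fin_cases j <;> rfl

theorem I3_J (h : T3 J u w c η) : I3 u w c * J = G3 η * (P3 J u w c η)ᵀ := by
  have e : ∀ (x : n → k) (l : n), ∑ j, x j * J j l = (J *ᵥ x) l := fun x l => by
    rw [mulVec, dotProduct]
    refine Finset.sum_congr rfl fun j _ => ?_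
    rw [mul_comm]
    congr 1
    exact congrFun (congrFun h.sym l) j
  ext i l
  rw [Matrix.mul_apply, Matrix.mul_apply, Fin.sum_univ_three]
  have h1 := h.ne
  have h2 := h.ne2
  fin_cases i <;>
    simp only [I3, P3, G3, transpose_transpose, of_apply, Fin.zero_eta, Fin.mk_one,
      Fin.reduceFinMk, Matrix.cons_val_zero, Matrix.cons_val_one, Matrix.cons_val, Pi.smul_apply,
      smul_eq_mul, e, zero_mul, zero_add, add_zero, mul_inv_cancel_left₀ h1,
      mul_inv_cancel_left₀ h2]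

theorem J_I3 (h : T3 J u w c η) : J * (I3 u w c)ᵀ = P3 J u w c η * G3 η := by
  have h1 := congrArg Matrix.transpose (I3_J h)
  rwa [transpose_mul, transpose_mul, transpose_transpose, h.sym, G3_tr] at h1

/-- the matrix of the homomorphism -/
def ph (J : Matrix n n k) (u w c : n → k) (η : k) (g : Matrix (Fin 2) (Fin 2) k) : Matrix n n k :=
  1 + P3 J u w c η * (M3 g - 1) * I3 u w c

theorem ph_one (J : Matrix n n k) (u w c : n → k) (η : k) : ph J u w c η 1 = 1 := by
  rw [ph, M3_one, sub_self, Matrix.mul_zero, Matrix.zero_mul, add_zero]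

theorem ph_mul (h : T3 J u w c η) (g g' : Matrix (Fin 2) (Fin 2) k) :
    ph J u w c η (g * g') = ph J u w c η g * ph J u w c η g' := by
  have e : P3 J u w c η * (M3 g - 1) * I3 u w c * (P3 J u w c η * (M3 g' - 1) * I3 u w c) =
      P3 J u w c η * ((M3 g - 1) * (M3 g' - 1)) * I3 u w c := by
    calc P3 J u w c η * (M3 g - 1) * I3 u w c * (P3 J u w c η * (M3 g' - 1) * I3 u w c)
        = P3 J u w c η * (M3 g - 1) * (I3 u w c * P3 J u w c η) * (M3 g' - 1) * I3 u w c := by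
          simp only [Matrix.mul_assoc]
      _ = _ := by rw [I3_P3 h, Matrix.mul_one, Matrix.mul_assoc (P3 J u w c η)]
  rw [ph, ph, ph, Matrix.add_mul, Matrix.one_mul, Matrix.mul_add, Matrix.mul_one, e, M3_mul]
  have e2 : M3 g * M3 g' - 1 = (M3 g - 1) + (M3 g' - 1) + (M3 g - 1) * (M3 g' - 1) := by
    rw [Matrix.sub_mul, Matrix.mul_sub, Matrix.one_mul, Matrix.mul_one]
    abel
  rw [e2, Matrix.mul_add, Matrix.mul_add, Matrix.add_mul, Matrix.add_mul]
  abel

theorem ph_det (h : T3 J u w c η) {g : Matrix (Fin 2) (Fin 2) k} (hg : g.det = 1) :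
    (ph J u w c η g).det = 1 := by
  rw [ph, Matrix.mul_assoc, det_one_add_mul_comm, Matrix.mul_assoc, I3_P3 h, Matrix.mul_one,
    add_sub_cancel, M3_det, hg, one_pow]

theorem ph_form (h : T3 J u w c η) {g : Matrix (Fin 2) (Fin 2) k} (hg : g.det = 1) :
    ph J u w c η g * J * (ph J u w c η g)ᵀ = J := by
  obtain ⟨N, hN⟩ : ∃ N, N = M3 g - 1 := ⟨_, rfl⟩
  have hM : M3 g = 1 + N := by rw [hN]; abel
  have h3 := M3_form hg η
  rw [hM, Matrix.add_mul, Matrix.one_mul, transpose_add, transpose_one, Matrix.mul_add,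
    Matrix.mul_one, Matrix.add_mul] at h3
  have h4 : N * G3 η + G3 η * Nᵀ + N * G3 η * Nᵀ = 0 := by
    have : G3 η + (N * G3 η + G3 η * Nᵀ + N * G3 η * Nᵀ) = G3 η + 0 := by
      rw [add_zero]
      refine Eq.trans ?_ h3
      abel
    exact add_left_cancel this
  have e0 : ph J u w c η g = 1 + P3 J u w c η * N * I3 u w c := by rw [ph, hN]
  have e1 : ph J u w c η g * J = J + P3 J u w c η * N * G3 η * (P3 J u w c η)ᵀ := by
    rw [e0, Matrix.add_mul, Matrix.one_mul, Matrix.mul_assoc (P3 J u w c η * N), I3_J h]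
    simp only [Matrix.mul_assoc]
  have e2 : (ph J u w c η g)ᵀ = 1 + (I3 u w c)ᵀ * Nᵀ * (P3 J u w c η)ᵀ := by
    rw [e0, transpose_add, transpose_one, transpose_mul, transpose_mul, Matrix.mul_assoc]
  have e3 : (P3 J u w c η)ᵀ * (I3 u w c)ᵀ = 1 := by
    rw [← transpose_mul, I3_P3 h, transpose_one]
  have e4 : J * ((I3 u w c)ᵀ * Nᵀ * (P3 J u w c η)ᵀ) =
      P3 J u w c η * (G3 η * Nᵀ) * (P3 J u w c η)ᵀ := by
    rw [← Matrix.mul_assoc, ← Matrix.mul_assoc, J_I3 h]
    simp only [Matrix.mul_assoc]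
  have e5 : P3 J u w c η * N * G3 η * (P3 J u w c η)ᵀ *
      ((I3 u w c)ᵀ * Nᵀ * (P3 J u w c η)ᵀ) =
      P3 J u w c η * (N * G3 η * Nᵀ) * (P3 J u w c η)ᵀ := by
    calc P3 J u w c η * N * G3 η * (P3 J u w c η)ᵀ * ((I3 u w c)ᵀ * Nᵀ * (P3 J u w c η)ᵀ)
        = P3 J u w c η * N * G3 η * ((P3 J u w c η)ᵀ * (I3 u w c)ᵀ) * Nᵀ *
          (P3 J u w c η)ᵀ := by simp only [Matrix.mul_assoc]
      _ = _ := by rw [e3, Matrix.mul_one]; simp only [Matrix.mul_assoc]
  have e6 : P3 J u w c η * N * G3 η * (P3 J u w c η)ᵀ =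
      P3 J u w c η * (N * G3 η) * (P3 J u w c η)ᵀ := by simp only [Matrix.mul_assoc]
  rw [e1, e2, Matrix.add_mul, Matrix.mul_add, Matrix.mul_one, Matrix.mul_add, Matrix.mul_one, e4,
    e5, e6]
  have e7 : P3 J u w c η * (N * G3 η) * (P3 J u w c η)ᵀ +
      P3 J u w c η * (G3 η * Nᵀ) * (P3 J u w c η)ᵀ +
      P3 J u w c η * (N * G3 η * Nᵀ) * (P3 J u w c η)ᵀ = 0 := by
    rw [← Matrix.add_mul, ← Matrix.add_mul, ← Matrix.mul_add, ← Matrix.mul_add, h4,
      Matrix.mul_zero, Matrix.zero_mul]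
  calc J + P3 J u w c η * (G3 η * Nᵀ) * (P3 J u w c η)ᵀ +
      (P3 J u w c η * (N * G3 η) * (P3 J u w c η)ᵀ +
        P3 J u w c η * (N * G3 η * Nᵀ) * (P3 J u w c η)ᵀ)
      = J + (P3 J u w c η * (N * G3 η) * (P3 J u w c η)ᵀ +
      P3 J u w c η * (G3 η * Nᵀ) * (P3 J u w c η)ᵀ +
      P3 J u w c η * (N * G3 η * Nᵀ) * (P3 J u w c η)ᵀ) := by abel
    _ = J := by rw [e7, add_zero]

/-- **the homomorphism** `SL₂ → O(J)` -/
def Ps (h : T3 J u w c η) : SpecialLinearGroup (Fin 2) k →* FormGroup (RingHom.id k) J where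
  toFun g := ⟨⟨ph J u w c η g.1, ph_det h g.2⟩, ph_form h g.2⟩
  map_one' := by
    apply Subtype.ext
    apply Subtype.ext
    exact ph_one J u w c η
  map_mul' g g' := by
    apply Subtype.ext
    apply Subtype.ext
    exact ph_mul h g.1 g'.1

theorem Ps_coe (h : T3 J u w c η) (g : SpecialLinearGroup (Fin 2) k) :
    (Ps h g).1.1 = ph J u w c η g.1 := rfl

/-- `M3 g` from the image -/
theorem I3_ph_P3 (h : T3 J u w c η) (g : Matrix (Fin 2) (Fin 2) k) :
    I3 u w c * ph J u w c η g * P3 J u w c η = M3 g := by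
  rw [ph, Matrix.mul_add, Matrix.mul_one, Matrix.add_mul, I3_P3 h]
  have e : I3 u w c * (P3 J u w c η * (M3 g - 1) * I3 u w c) * P3 J u w c η =
      (I3 u w c * P3 J u w c η) * (M3 g - 1) * (I3 u w c * P3 J u w c η) := by
    simp only [Matrix.mul_assoc]
  rw [e, I3_P3 h, Matrix.one_mul, Matrix.mul_one]
  abel

theorem vecMul_P3 (h : T3 J u w c η) (x : n → k) : x ᵥ* P3 J u w c η =
    ![η⁻¹ * hf (RingHom.id k) J x w, η⁻¹ * hf (RingHom.id k) J x u,
      (-2 * η)⁻¹ * hf (RingHom.id k) J x c] := by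
  funext j
  rw [vecMul, P3]
  fin_cases j <;>
    simp only [transpose_apply, of_apply, Fin.zero_eta, Fin.mk_one, Fin.reduceFinMk,
      Matrix.cons_val_zero, Matrix.cons_val_one, Matrix.cons_val, hf_id]
  · exact dotProduct_smul _ _ _
  · exact dotProduct_smul _ _ _
  · exact dotProduct_smul _ _ _

theorem vecMul_I3 (a : Fin 3 → k) : a ᵥ* I3 u w c = a 0 • u + a 1 • w + a 2 • c := by
  funext l
  rw [vecMul, dotProduct, Fin.sum_univ_three]
  simp [I3]

theorem vecMul_ph (h : T3 J u w c η) (g : Matrix (Fin 2) (Fin 2) k) (x : n → k) :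
    x ᵥ* ph J u w c η g = x + (x ᵥ* P3 J u w c η ᵥ* (M3 g - 1)) ᵥ* I3 u w c := by
  rw [ph, vecMul_add, vecMul_one, ← vecMul_vecMul, ← vecMul_vecMul]

/-- the image of an upper unipotent is an Eichler element -/
theorem ps_up (h : T3 J u w c η) (hF : Fm (RingHom.id k) 1 J) (s : k) :
    EP (RingHom.id k) 1 J w ((η⁻¹ * s) • c) (s ^ 2 * η⁻¹) ∧
    ph J u w c η (Matrix.transvection 0 1 s) =
      (ei (RingHom.id k) 1 J w ((η⁻¹ * s) • c) (s ^ 2 * η⁻¹)).1 := by
  have hep : EP (RingHom.id k) 1 J w ((η⁻¹ * s) • c) (s ^ 2 * η⁻¹) := by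
    refine ⟨h.ww, ?_, ?_⟩
    · rw [hf_smul_left, h.cw, mul_zero]
    · rw [hf_smul_left, hf_smul_right, h.cc]
      simp only [RingHom.id_apply]
      have := h.ne
      field_simp
      ring
  refine ⟨hep, ext_iff_vecMul.mpr fun x => ?_⟩
  rw [vecMul_ei hF hep, vecMul_ph h, vecMul_P3 h, vecMul_I3]
  have e1 : M3 (Matrix.transvection (0 : Fin 2) 1 s) - 1 = !![0, s ^ 2, s; 0, 0, 0; 0, 2 * s, 0] := by
    ext i j
    fin_cases i <;> fin_cases j <;> simp [M3, transvection, Matrix.single_apply]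
  rw [e1, hf_smul_right]
  have hη := h.ne
  have h2 := h.two
  funext l
  simp [vecMul, dotProduct, Fin.sum_univ_three]
  field_simp
  ring

theorem ps_lo (h : T3 J u w c η) (hF : Fm (RingHom.id k) 1 J) (s : k) :
    EP (RingHom.id k) 1 J u ((η⁻¹ * s) • c) (s ^ 2 * η⁻¹) ∧
    ph J u w c η (Matrix.transvection 1 0 s) =
      (ei (RingHom.id k) 1 J u ((η⁻¹ * s) • c) (s ^ 2 * η⁻¹)).1 := by
  have hep : EP (RingHom.id k) 1 J u ((η⁻¹ * s) • c) (s ^ 2 * η⁻¹) := by
    refine ⟨h.uu, ?_, ?_⟩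
    · rw [hf_smul_left, h.cu, mul_zero]
    · rw [hf_smul_left, hf_smul_right, h.cc]
      simp only [RingHom.id_apply]
      have := h.ne
      field_simp
      ring
  refine ⟨hep, ext_iff_vecMul.mpr fun x => ?_⟩
  rw [vecMul_ei hF hep, vecMul_ph h, vecMul_P3 h, vecMul_I3]
  have e1 : M3 (Matrix.transvection (1 : Fin 2) 0 s) - 1 = !![0, 0, 0; s ^ 2, 0, s; 2 * s, 0, 0] := by
    ext i j
    fin_cases i <;> fin_cases j <;> simp [M3, transvection, Matrix.single_apply]
  rw [e1, hf_smul_right]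
  have hη := h.ne
  have h2 := h.two
  funext l
  simp [vecMul, dotProduct, Fin.sum_univ_three]
  field_simp
  ring

/-- **the image is in `EU`** -/
theorem Ps_mem (h : T3 J u w c η) (hF : Fm (RingHom.id k) 1 J)
    (g : SpecialLinearGroup (Fin 2) k) : (Ps h g).1 ∈ EU (RingHom.id k) 1 J := by
  have key : (EU (RingHom.id k) 1 J).comap ((FormGroup (RingHom.id k) J).subtype.comp (Ps h)) = ⊤ := by
    refine H899.eq_top_of_e _ fun i j hij s => ?_
    change (Ps h (Matrix.SpecialLinearGroup.transvection hij s)).1 ∈ EU (RingHom.id k) 1 J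
    have e0 : (Matrix.SpecialLinearGroup.transvection hij s).1 = Matrix.transvection i j s :=
      Matrix.SpecialLinearGroup.transvection_coe hij s
    fin_cases i <;> fin_cases j
    · exact absurd rfl hij
    · obtain ⟨h1, h2⟩ := ps_up h hF s
      have e : (Ps h (Matrix.SpecialLinearGroup.transvection hij s)).1 =
          ei (RingHom.id k) 1 J w ((η⁻¹ * s) • c) (s ^ 2 * η⁻¹) := by
        apply Subtype.ext
        rw [Ps_coe, e0]
        exact h2
      rw [e]
      exact ei_mem_EU h1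
    · obtain ⟨h1, h2⟩ := ps_lo h hF s
      have e : (Ps h (Matrix.SpecialLinearGroup.transvection hij s)).1 =
          ei (RingHom.id k) 1 J u ((η⁻¹ * s) • c) (s ^ 2 * η⁻¹) := by
        apply Subtype.ext
        rw [Ps_coe, e0]
        exact h2
      rw [e]
      exact ei_mem_EU h1
    · exact absurd rfl hij
  have h1 : g ∈ (EU (RingHom.id k) 1 J).comap
      ((FormGroup (RingHom.id k) J).subtype.comp (Ps h)) := by
    rw [key]
    exact Subgroup.mem_top g
  exact h1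

end alg

end Vale.Agent.P092.H534.Or
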